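import Vale.Agent.P287Q.Wg.Prd
import Vale.Agent.P287Q.Us.TwDefs

/-!
# The master space of a smooth blow-up: description of the multicone
-/

set_option linter.unusedSectionVars false

namespace Vale.Agent.P287Q

open Set Function Topology Filter Module P269 P269.Holo MvPolynomial Wg

namespace Wg

theorem whom_rename {J J' S : Type} [Fintype J] [Fintype J'] [Fintype S] {w : J' → S → ℤ}
    {χ : S → ℤ} {p : MvPolynomial J ℂ} {ι : J → J'} (h : WHom (w ∘ ι) χ p) :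
    WHom w χ (rename ι p) := by
  classical
  rw [whom_iff] at h ⊢
  rw [p.as_sum, map_sum]
  refine IsWeightedHomogeneous.sum _ _ _ fun α hα => ?_
  rw [rename_monomial]
  refine isWeightedHomogeneous_monomial _ _ _ ?_
  rw [← h (mem_support_iff.1 hα), Finsupp.weight_apply, Finsupp.weight_apply,
    Finsupp.sum_mapDomain_index (h := fun i c => c • w i) (fun _ => zero_smul _ _)
      fun _ _ _ => add_smul _ _ _]
  rfl

theorem elim_eq_zero {J J' : Type} {a : J → ℂ} {b : J' → ℂ} : Sum.elim a b = 0 ↔ a = 0 ∧ b = 0 := by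
  rw [← Sum.elim_eq_iff, Sum.elim_zero_zero]

theorem whom_X {J S : Type} [Fintype J] [Fintype S] (w : J → S → ℤ) (j : J) :
    WHom w (w j) (X j : MvPolynomial J ℂ) := whom_iff.2 (isWeightedHomogeneous_X ℂ w j)

theorem whom_map {J S S' : Type} [Fintype J] [Fintype S] [Fintype S'] {w : J → S → ℤ} {χ : S → ℤ}
    {p : MvPolynomial J ℂ} (h : WHom w χ p) (o : S' → Option S) :
    WHom (fun j s => (o s).elim 0 (w j)) (fun s => (o s).elim 0 χ) p := fun α hα s => by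
  rcases e : o s with _ | r
  · simp [e]
  · simpa [e] using h α hα r

theorem whom_zero {J S : Type} [Fintype J] [Fintype S] (p : MvPolynomial J ℂ) :
    WHom (0 : J → S → ℤ) 0 p := fun _ _ _ => by simp

end Wg

namespace Ctr

variable {n : ℕ} {Y : Var n} (c : Ctr Y)

theorem whom_h (α : Sel Y.π) : WHom (bw Y.π) c.δ (c.h α) := by
  have := IsWeightedHomogeneous.prod Finset.univ (fun r => X (α.1 r) ^ (c.δ r).toNat)
    (fun r => (c.δ r).toNat • bw Y.π (α.1 r))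
    fun r _ => (isWeightedHomogeneous_X ℂ (bw Y.π) (α.1 r)).pow _
  refine whom_iff.2 (Eq.subst (motive := IsWeightedHomogeneous _ _) (funext fun r => ?_) this)
  simp [bw, α.2, Pi.single_apply, (c.pos r).le]

theorem h_ne {x : Y.J → ℂ} (hx : x ∈ Ust Y.π) : gv c.h x ≠ 0 := by
  choose s h1 h2 using hx
  refine ne_iff.2 ⟨⟨s, h1⟩, ?_⟩
  simp only [gv, h, map_prod, map_pow, eval_X]
  exact Finset.prod_ne_zero_iff.2 fun r _ => pow_ne_zero _ (h2 r)

theorem gv_Pg (q : Y.J ⊕ Bool → ℂ) : gv c.Pg q =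
    Sum.elim (q (.inr false) • gv c.g (q ∘ .inl)) (q (.inr true) • gv c.h (q ∘ .inl)) :=
  funext fun j => j.rec (fun k => by simp [gv, Pg, eval_rename, mul_comm])
    fun α => by simp [gv, Pg, eval_rename, mul_comm]

theorem fderiv_Pg (q v : Y.J ⊕ Bool → ℂ) : fderiv ℂ (gv c.Pg) q v =
    Sum.elim (q (.inr false) • fderiv ℂ (gv c.g) (q ∘ .inl) (v ∘ .inl) +
        v (.inr false) • gv c.g (q ∘ .inl))
      (q (.inr true) • fderiv ℂ (gv c.h) (q ∘ .inl) (v ∘ .inl) +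
        v (.inr true) • gv c.h (q ∘ .inl)) := by
  have a : ∀ {K : Type} [Fintype K] (g : K → MvPolynomial Y.J ℂ) (b : Bool),
      fderiv ℂ (fun q : Y.J ⊕ Bool → ℂ => q (.inr b) • gv g (q ∘ .inl)) q v =
        q (.inr b) • fderiv ℂ (gv g) (q ∘ .inl) (v ∘ .inl) + v (.inr b) • gv g (q ∘ .inl) :=
    fun g b => by
      rw [((hasFDerivAt_apply (.inr b) q).fun_smul
        (an_gv' (g := g) (an_inl q)).differentiableAt.hasFDerivAt).fderiv,
        fderiv_comp_an (an_gv g _) (an_inl q)]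
      simp [fderiv_pre]
  rw [funext c.gv_Pg, fderiv_elim ((an_cd _ _).fun_smul (an_gv' (an_inl q)))
    ((an_cd _ _).fun_smul (an_gv' (an_inl q))), a, a]

variable (Y) in
theorem pvP : PV (blP Bool Y.π) (PA Y) (n + 1) := pv_prd Y.pv pv_line

theorem pvC : PV (blP Bool Y.π) c.PC c.m := pv_prd c.pv (pv_pt true)

theorem mem_tn_PA {q v : Y.J ⊕ Bool → ℂ} (h : q ∈ PA Y) :
    v ∈ tn (PA Y) q ↔ v ∘ .inl ∈ tn Y.A (q ∘ .inl) :=
  (mem_tn_prd (Y.pv.mfd _ h.1) (pv_line.mfd _ h.2)).trans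
    (and_iff_left (by rw [tn_line h.2]; trivial))

theorem cutP : Cut (blP Bool Y.π) (PA Y) c.PC (fun o => o.elim 1 c.δ) c.Pg := by
  have e : ∀ (p : MvPolynomial Y.J ℂ) (b : Bool), WHom (bw Y.π) c.δ p →
      WHom (bw (blP Bool Y.π)) (fun o => o.elim 1 c.δ) (rename .inl p * X (.inr b)) :=
    fun p b hp => by
      have := WHom.mul (whom_rename (w := bw (blP Bool Y.π)) (ι := .inl)
        (χ := fun o => o.elim 0 c.δ) (Eq.subst (motive := fun w => WHom w _ p)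
          (funext₂ fun j o => ?_) (whom_map hp id))) (whom_X _ (.inr b))
      · refine Eq.subst (motive := fun χ => WHom _ χ _) (funext fun o => ?_) this
        rcases o with _ | r <;> simp [bw, blP]
      · rcases o with _ | r <;> simp [bw, blP, Pi.single_apply]
  refine ⟨fun k => k.rec (fun k => e _ _ (c.cut.hom k)) fun α => e _ _ (c.whom_h α),
    fun _ a => ⟨c.cut.sub a.1, a.2.1⟩, fun q a => ?_, fun q a v b d => ?_⟩
  · rw [gv_Pg, elim_eq_zero, smul_eq_zero_iff_left (c.h_ne (Y.pv.sub a.1))]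
    exact ⟨fun b => ⟨by rw [(c.cut.zero _ a.1).1 b.1, smul_zero], b.2.2⟩, fun b =>
      ⟨(c.cut.zero _ a.1).2 ((smul_eq_zero_iff_right (ne_of_pt a.2 b.2)).1 b.1), a.2, b.2⟩⟩
  · have a1 := c.cut.sub a.1
    rw [fderiv_Pg, elim_eq_zero, (c.cut.zero _ a1).1 a.1, a.2.2, smul_zero, add_zero,
      zero_smul, zero_add, smul_eq_zero_iff_left (c.h_ne (Y.pv.sub a1))] at d
    exact (mem_tn_prd (c.pv.mfd _ a.1) ((pv_pt true).mfd _ a.2)).2
      ⟨c.cut.jac _ a.1 _ ((mem_tn_PA ⟨a1, a.2.1⟩).1 b)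
        ((smul_eq_zero_iff_right (ne_of_pt a.2.1 a.2.2)).1 d.1), (mem_tn_pt a.2.1 a.2.2).2 d.2⟩

theorem pvM : PV c.Mπ c.MA (n + 1) := c.cutP.bl (pvP Y) c.pvC

/-- The point with the given coordinates. -/
def pt (x : Y.J → ℂ) (t₁ t₀ : ℂ) (u : Fin c.k → ℂ) (ω : Sel Y.π → ℂ) : c.MJ → ℂ :=
  Sum.elim (Sum.elim x fun b => cond b t₁ t₀) (Sum.elim u ω)

theorem pt_eta (w : c.MJ → ℂ) : c.pt (w ∘ .inl ∘ .inl) (w (.inl (.inr true)))
    (w (.inl (.inr false))) (w ∘ .inr ∘ .inl) (w ∘ .inr ∘ .inr) = w :=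
  funext fun j => by rcases j with (j | _ | _) | k | α <;> rfl

theorem exists_pt (w : c.MJ → ℂ) : ∃ x t₁ t₀ u ω, w = c.pt x t₁ t₀ u ω :=
  ⟨_, _, _, _, _, (c.pt_eta w).symm⟩

variable {c} {x x' : Y.J → ℂ} {t₁ t₀ t₁' t₀' : ℂ} {u u' : Fin c.k → ℂ} {ω ω' : Sel Y.π → ℂ}

theorem pt_inj : c.pt x t₁ t₀ u ω = c.pt x' t₁' t₀' u' ω' ↔
    x = x' ∧ t₁ = t₁' ∧ t₀ = t₀' ∧ u = u' ∧ ω = ω' :=
  ⟨fun e => ⟨funext fun j => congrFun e (.inl (.inl j)), congrFun e (.inl (.inr true)),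
    congrFun e (.inl (.inr false)), funext fun j => congrFun e (.inr (.inl j)),
    funext fun j => congrFun e (.inr (.inr j))⟩,
    fun ⟨a, b, d, e, f⟩ => by rw [a, b, d, e, f]⟩

theorem scl_pt (t : Option (Option Y.R) → ℂ) : scl c.Mπ t (c.pt x t₁ t₀ u ω) =
    c.pt (scl Y.π (fun r => t (some (some r))) x) (t (some none) * t₁) (t (some none) * t₀)
      (t none • u) (t none • ω) :=
  funext fun j => by rcases j with (j | _ | _) | k | α <;> rfl

theorem tw_pt (τ : Unit → ℂ) : tw c.Mwt τ (c.pt x t₁ t₀ u ω) = c.pt x (τ () * t₁) t₀ u (τ () • ω) :=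
  funext fun j => by rcases j with (j | _ | _) | k | α <;> simp [tw, Mwt, pt]

theorem an_pt {P : Type*} [NormedAddCommGroup P] [NormedSpace ℂ P] {q : P} {x : P → Y.J → ℂ}
    {t₁ t₀ : P → ℂ} {u : P → Fin c.k → ℂ} {ω : P → Sel Y.π → ℂ} (hx : AnalyticAt ℂ x q)
    (h₁ : AnalyticAt ℂ t₁ q) (h₀ : AnalyticAt ℂ t₀ q) (hu : AnalyticAt ℂ u q)
    (hω : AnalyticAt ℂ ω q) : AnalyticAt ℂ (fun p => c.pt (x p) (t₁ p) (t₀ p) (u p) (ω p)) q :=
  an_elim (an_elim hx (analyticAt_pi_iff.2 fun b => b.rec h₀ h₁)) (an_elim hu hω)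

theorem cond_ne : (fun b => cond b t₁ t₀) ≠ 0 ↔ t₁ ≠ 0 ∨ t₀ ≠ 0 := by
  simp [ne_iff, or_comm]

/-- **The multicone in coordinates**: `e` is the equation of the exceptional divisor, `τ` the one of
the sink. -/
theorem mem_MA : c.pt x t₁ t₀ u ω ∈ c.MA ↔ x ∈ Y.A ∧ (t₁ ≠ 0 ∨ t₀ ≠ 0) ∧ (u ≠ 0 ∨ ω ≠ 0) ∧
    ∃ e τ : ℂ, t₀ • gv c.g x = e • u ∧ ω = τ • gv c.h x ∧ t₁ = e * τ ∧
      (e = 0 → ∃ v ∈ tn Y.A x, fderiv ℂ (gv c.g) x v = u) := by
  refine mem_blA.trans ((and_congr_left' (and_congr_right' cond_ne)).trans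
    (and_assoc.trans (and_congr_right fun a => and_congr_right fun b =>
      and_congr (elim_eq_zero.not.trans not_and_or) (exists_congr fun e => ?_))))
  have hx : gv c.h x ≠ 0 := c.h_ne (Y.pv.sub a)
  have m : Sum.elim x (fun b => cond b t₁ t₀) ∈ PA Y := ⟨a, cond_ne.2 b⟩
  simp only [gv_Pg, fderiv_Pg, mem_tn_PA m, Sum.elim_inr, cond_true, cond_false, Sum.elim_comp_inl,
    show e • Sum.elim u ω = Sum.elim (e • u) (e • ω) from funext fun j => j.rec (fun _ => rfl)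
      fun _ => rfl, Sum.elim_eq_iff]
  rcases eq_or_ne e 0 with rfl | he
  · simp only [zero_smul, smul_eq_zero_iff_left hx, zero_mul, forall_const]
    refine ⟨fun ⟨⟨d, f⟩, v, g, i, j⟩ => ?_, fun ⟨τ, d, f, g, v, i, j⟩ => ?_⟩
    · have k := (smul_eq_zero_iff_right (b.resolve_left fun l => l f)).1 d
      rw [k, smul_zero, add_zero] at i
      rw [f, zero_smul, zero_add] at j
      exact ⟨_, d, j.symm, f, _, Submodule.smul_mem _ t₀ g, (map_smul _ _ _).trans i⟩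
    · have k := b.resolve_left fun l => l g
      refine ⟨⟨d, g⟩, Sum.elim (t₀⁻¹ • v) fun b => cond b τ 0, Submodule.smul_mem _ _ i, ?_, ?_⟩
      · simp [smul_smul, k, j]
      · simp [g, f]
  · simp only [he, IsEmpty.forall_iff, and_true]
    exact ⟨fun ⟨d, f⟩ => ⟨t₁ / e, d, by rw [div_eq_inv_mul, mul_smul, f, inv_smul_smul₀ he],
      (mul_div_cancel₀ _ he).symm⟩, fun ⟨τ, d, f, g⟩ => ⟨d, by rw [f, g, mul_smul]⟩⟩

end Ctr

end Vale.Agent.P287Q
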