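import Vale.Agent.P287Q.Wg.Blm0

/-!
# The master space of a smooth blow-up
-/

set_option linter.unusedSectionVars false

namespace Vale.Agent.P287Q

open Set Function Topology Filter Module P269 P269.Holo MvPolynomial Wg

namespace Ctr

variable {n : ℕ} {Y : Var n} {c : Ctr Y} {x : Y.J → ℂ} {t₁ t₀ e τ : ℂ} {u : Fin c.k → ℂ}
  {ω : Sel Y.π → ℂ} {w : c.MJ → ℂ}

theorem mem_Src : c.pt x t₁ t₀ u ω ∈ c.Src ↔
    x ∈ Y.A ∧ t₁ ≠ 0 ∧ t₀ = 0 ∧ u = 0 ∧ ∃ τ : ℂ, τ ≠ 0 ∧ ω = τ • gv c.h x := by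
  refine ⟨fun ⟨a, (b : t₀ = 0)⟩ => ?_, fun ⟨a, b, d, f, τ, g, i⟩ => ⟨mem_MA.2 ⟨a, .inl b,
    .inr (i ▸ smul_ne_zero g (c.h_ne (Y.pv.sub a))), t₁ / τ, τ, by simp [d, f], i,
    (div_mul_cancel₀ _ g).symm, fun j => (div_ne_zero b g j).elim⟩, d⟩⟩
  obtain ⟨a, d, -, e, τ, f, g, i, -⟩ := mem_MA.1 a
  have j := d.resolve_right fun l => l b
  rw [b, zero_smul] at f
  exact ⟨a, j, b, (smul_eq_zero_iff_right (left_ne_zero_of_mul (i ▸ j))).1 f.symm, τ,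
    right_ne_zero_of_mul (i ▸ j), g⟩

theorem mem_Snk : c.pt x t₁ t₀ u ω ∈ c.Snk ↔
    Sum.elim x u ∈ blA Y.A c.g ∧ t₁ = 0 ∧ t₀ ≠ 0 ∧ ω = 0 := by
  refine ⟨fun ⟨a, b⟩ => ?_, fun ⟨⟨a, b, e, d, f⟩, g, i, j⟩ => ⟨mem_MA.2 ⟨a, .inr i, .inl b,
    t₀ * e, 0, by rw [mul_smul]; exact congrArg _ d, by rw [j, zero_smul], by rw [g, mul_zero],
    fun k => f ((mul_eq_zero_iff_left i).1 k)⟩, congrFun j⟩⟩
  have b' : ω = 0 := funext b
  obtain ⟨a, d, f, e, τ, g, i, j, k⟩ := mem_MA.1 a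
  have l : t₁ = 0 := by
    rw [j, (smul_eq_zero_iff_left (c.h_ne (Y.pv.sub a))).1 (i.symm.trans b'), mul_zero]
  have m := d.resolve_left fun o => o l
  exact ⟨mem_blA.2 ⟨a, f.resolve_right fun o => o b', t₀⁻¹ * e, by
    rw [mul_smul, ← g, inv_smul_smul₀ m], fun o => k ((mul_eq_zero_iff_left (inv_ne_zero m)).1 o)⟩,
    l, m, b'⟩

theorem mem_Mid : c.pt x t₁ t₀ u ω ∈ c.Mid ↔
    x ∈ c.C ∧ t₁ = 0 ∧ t₀ ≠ 0 ∧ u = 0 ∧ ∃ τ : ℂ, τ ≠ 0 ∧ ω = τ • gv c.h x := by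
  refine ⟨fun ⟨a, (b : t₁ = 0), b'⟩ => ?_, fun ⟨a, b, d, f, τ, g, i⟩ => ⟨mem_MA.2 ⟨c.cut.sub a,
    .inr d, .inr (i ▸ smul_ne_zero g (c.h_ne (Y.pv.sub (c.cut.sub a)))), 0, τ,
    by rw [(c.cut.zero _ (c.cut.sub a)).1 a, smul_zero, zero_smul], i, by rw [b, zero_mul],
    fun _ => ⟨0, zero_mem _, by rw [map_zero, f]⟩⟩, b, congrFun f⟩⟩
  have b'' : u = 0 := funext b'
  obtain ⟨a, d, f, e, τ, g, i, -⟩ := mem_MA.1 a
  have m := d.resolve_left fun o => o b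
  rw [b'', smul_zero] at g
  exact ⟨(c.cut.zero _ a).2 ((smul_eq_zero_iff_right m).1 g), b, m, b'', τ,
    fun o => f.resolve_left (fun p => p b'') (by rw [i, o, zero_smul]), i⟩

variable (c) in
theorem tinvM : TInv c.Mwt c.MA := fun s hs w hw => by
  obtain ⟨x, t₁, t₀, u, ω, rfl⟩ := c.exists_pt w
  obtain ⟨a, b, d, e, τ, f, g, i, j⟩ := mem_MA.1 hw
  have k := unit_iff.1 hs ()
  exact tw_pt s ▸ mem_MA.2 ⟨a, b.imp_left (mul_ne_zero k), d.imp_right (smul_ne_zero k), e,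
    s () * τ, f, by rw [g, mul_smul], by rw [i, mul_left_comm], j⟩

/-- the element of the torus that rescales the two new blocks -/
def el (Y : Var n) (a b : ℂ) : Option (Option Y.R) → ℂ := fun o => o.elim b fun o => o.elim a 1

theorem unit_el {a b : ℂ} (ha : a ≠ 0) (hb : b ≠ 0) : IsUnit (el Y a b) :=
  unit_iff.2 fun o => by
    rcases o with _ | _ | r
    exacts [hb, ha, one_ne_zero]

theorem scl_el (a b : ℂ) : scl c.Mπ (el Y a b) (c.pt x t₁ t₀ u ω) =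
    c.pt x (a * t₁) (a * t₀) (b • u) (b • ω) :=
  (scl_pt _).trans (congrArg (c.pt · _ _ _ _) (scl_one x))

theorem orb_pt {x' t₁' t₀' u' ω'} : Orb c.Mπ (c.pt x t₁ t₀ u ω) (c.pt x' t₁' t₀' u' ω') ↔
    ∃ (t : Y.R → ℂ) (a b : ℂ), IsUnit t ∧ a ≠ 0 ∧ b ≠ 0 ∧ x' = scl Y.π t x ∧ t₁' = a * t₁ ∧
      t₀' = a * t₀ ∧ u' = b • u ∧ ω' = b • ω :=
  ⟨fun ⟨t, a, b⟩ => ⟨_, _, _, unit_iff.2 fun r => unit_iff.1 a (some (some r)), unit_iff.1 a _,
    unit_iff.1 a _, pt_inj.1 (b.trans (scl_pt t))⟩, fun ⟨t, a, b, d, f, g, i⟩ =>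
    ⟨fun o => o.elim b fun o => o.elim a t, unit_iff.2 fun o => by
      rcases o with _ | _ | r
      exacts [g, f, unit_iff.1 d r],
      (pt_inj.2 i).trans (scl_pt fun o => o.elim b fun o => o.elim a t).symm⟩⟩

theorem prod_single {R : Type} [Fintype R] [DecidableEq R] (t : R → ℂ) (r : R) :
    ∏ r₀, t r₀ ^ (Pi.single r 1 : R → ℤ) r₀ = t r := by
  rw [Finset.prod_eq_single r (fun _ _ a => by simp [a]) (by simp)]
  simp

variable (c) in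
/-- the section over the source (`b = true`) or over the centre (`b = false`) -/
noncomputable def sec (b : Bool) (x : Y.J → ℂ) : c.MJ → ℂ :=
  c.pt x (cond b 1 0) (cond b 0 1) 0 (gv c.h x)

theorem an_sec (b : Bool) (x : Y.J → ℂ) : AnalyticAt ℂ (c.sec b) x :=
  an_pt analyticAt_id analyticAt_const analyticAt_const analyticAt_const (an_gv _ _)

theorem sec_eqv (b : Bool) : ∃ d : Option (Option Y.R) → Y.R → ℤ, ∀ t, IsUnit t → ∀ x,
    c.sec b (scl Y.π t x) = scl c.Mπ (fun r => ∏ r₀, t r₀ ^ d r r₀) (c.sec b x) :=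
  ⟨fun o => o.elim c.δ fun o => o.elim 0 fun r => Pi.single r 1, fun t ht x => by
    simp [sec, scl_pt, prod_single, gv_scl c.whom_h ht, cha]⟩

variable (c) in
theorem sct_src : Sct Y.π c.Mπ c.Src (.inl ∘ .inl) Y.A (c.sec true) where
  hol x _ := .of_an (an_sec _ x)
  mem _ a := mem_Src.2 ⟨a, one_ne_zero, rfl, rfl, 1, one_ne_zero, (one_smul _ _).symm⟩
  inv _ _ := rfl
  orb w a _ := by
    obtain ⟨x, t₁, t₀, u, ω, rfl⟩ := c.exists_pt w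
    obtain ⟨-, b, rfl, rfl, τ, d, rfl⟩ := mem_Src.1 a
    exact orb_pt.2 ⟨1, t₁, τ, isUnit_one, b, d, (scl_one x).symm, by simp, by simp, by simp, rfl⟩
  eqv := (sec_eqv true).imp fun _ a t ht x _ => a t ht x

variable (c) in
theorem sct_mid : Sct Y.π c.Mπ c.Mid (.inl ∘ .inl) c.C (c.sec false) where
  hol x _ := .of_an (an_sec _ x)
  mem _ a := mem_Mid.2 ⟨a, rfl, one_ne_zero, rfl, 1, one_ne_zero, (one_smul _ _).symm⟩
  inv _ _ := rfl
  orb w a _ := by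
    obtain ⟨x, t₁, t₀, u, ω, rfl⟩ := c.exists_pt w
    obtain ⟨-, rfl, b, rfl, τ, d, rfl⟩ := mem_Mid.1 a
    exact orb_pt.2 ⟨1, t₀, τ, isUnit_one, b, d, (scl_one x).symm, by simp, by simp, by simp, rfl⟩
  eqv := (sec_eqv false).imp fun _ a t ht x _ => a t ht x

variable (c) in
/-- the section over the sink -/
def secK (y : Y.J ⊕ Fin c.k → ℂ) : c.MJ → ℂ := c.pt (y ∘ .inl) 0 1 (y ∘ .inr) 0

variable (c) in
theorem sct_snk : Sct c.bl.π c.Mπ c.Snk (Sum.map .inl .inl) c.bl.A c.secK where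
  hol y _ := .of_an (an_pt (an_inl y) analyticAt_const analyticAt_const (an_inr y) analyticAt_const)
  mem _ a := mem_Snk.2 ⟨a, rfl, one_ne_zero, rfl⟩
  inv _ _ := funext fun j => j.rec (fun _ => rfl) fun _ => rfl
  orb w a _ := by
    obtain ⟨x, t₁, t₀, u, ω, rfl⟩ := c.exists_pt w
    obtain ⟨-, rfl, b, rfl⟩ := mem_Snk.1 a
    exact orb_pt.2 ⟨1, t₀, 1, isUnit_one, b, one_ne_zero, (scl_one x).symm, by simp, by simp,
      (one_smul _ _).symm, by simp⟩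
  eqv := ⟨fun o => o.elim (Pi.single none 1) fun o => o.elim 0 fun r => Pi.single (some r) 1,
    fun t _ y _ => by
      simp only [secK, scl_pt, Option.elim, prod_single, Pi.zero_apply, zpow_zero,
        Finset.prod_const_one, one_mul, smul_zero]
      rfl⟩

variable (c) in
theorem sct_gen : Sct (blP Bool Y.π) c.Mπ c.MA .inl (PA Y \ c.PC)
    fun q => Sum.elim q (gv c.Pg q) where
  hol q _ := .of_an (an_elim analyticAt_id (an_gv _ q))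
  mem q a := (mem_blA_off (mt (c.cutP.zero q a.1).2 a.2)).2
    ⟨a.1, 1, one_ne_zero, (one_smul _ _).symm⟩
  inv _ _ := rfl
  orb w a b := by
    obtain ⟨-, s, d, f⟩ := (mem_blA_off (u := w ∘ .inr) (mt (c.cutP.zero _ b.1).2 b.2)).1 a
    refine ⟨fun o => o.elim s 1, unit_option.2 ⟨isUnit_one, d⟩, ?_⟩
    rw [Mπ, scl_blP, ← Sum.elim_comp_inl_inr w, f]
    exact congrArg (Sum.elim · _) (scl_one _).symm
  eqv := ⟨fun o => o.elim (fun o => o.elim 1 c.δ) fun o => Pi.single o 1, fun t ht q _ => by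
    rw [Mπ, scl_blP, gv_scl c.cutP.hom ht]
    exact congrArg (Sum.elim · _) (congrArg (scl _ · q) (funext fun o => (prod_single t o).symm))⟩

theorem fix_iff (hw : w ∈ c.MA) :
    (∀ τ, IsUnit τ → Orb c.Mπ w (tw c.Mwt τ w)) ↔ w ∈ c.Src ∪ c.Snk ∪ c.Mid := by
  obtain ⟨x, t₁, t₀, u, ω, rfl⟩ := c.exists_pt w
  simp only [tw_pt, orb_pt]
  refine ⟨fun h => ?_, fun h τ hτ => ⟨1, ?_⟩⟩
  · obtain ⟨-, a, b, -, -, -, -, d, f, g, i⟩ := h (fun _ => 2) (unit_iff.2 fun _ => two_ne_zero)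
    by_cases j : t₀ = 0
    · exact .inl (.inl ⟨hw, j⟩)
    by_cases k : ω = 0
    · exact .inl (.inr ⟨hw, congrFun k⟩)
    rw [mul_right_cancel₀ j (f.symm.trans (one_mul _).symm)] at d
    rw [← smul_left_injective ℂ k i, two_smul, left_eq_add] at g
    exact .inr ⟨hw, show t₁ = 0 by linear_combination d, congrFun g⟩
  have k := unit_iff.1 hτ ()
  rcases h with (h | h) | h
  · obtain ⟨-, -, rfl, rfl, -⟩ := mem_Src.1 h
    exact ⟨τ (), τ (), isUnit_one, k, k, (scl_one x).symm, by simp⟩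
  · obtain ⟨-, rfl, -, rfl⟩ := mem_Snk.1 h
    exact ⟨1, 1, isUnit_one, one_ne_zero, one_ne_zero, (scl_one x).symm, by simp⟩
  · obtain ⟨-, rfl, -, rfl, -⟩ := mem_Mid.1 h
    exact ⟨1, τ (), isUnit_one, one_ne_zero, k, (scl_one x).symm, by simp⟩

theorem Mτ_spec (hw : w ∈ c.MA) : w ∘ .inr ∘ .inr = c.Mτ w • gv c.h (w ∘ .inl ∘ .inl) := by
  obtain ⟨x, t₁, t₀, u, ω, rfl⟩ := c.exists_pt w
  obtain ⟨-, -, -, e, τ, -, a, -⟩ := mem_MA.1 hw
  exact funext (Classical.epsilon_spec (p := fun τ : ℂ => ∀ α, ω α = τ * eval x (c.h α))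
    ⟨τ, congrFun a⟩)

theorem Mτ_eq (hw : c.pt x t₁ t₀ u ω ∈ c.MA) (h : ω = τ • gv c.h x) :
    c.Mτ (c.pt x t₁ t₀ u ω) = τ :=
  smul_left_injective ℂ (c.h_ne (Y.pv.sub hw.1.1)) ((Mτ_spec hw).symm.trans h)

theorem holOn_Mτ (hw : w ∈ c.MA) : HolOn c.MA c.Mτ w := by
  obtain ⟨α, a⟩ := ne_iff.1 (c.h_ne (Y.pv.sub hw.1.1))
  have b := analyticAt_pi_iff.1 (an_gv' (g := c.h) (an_pre (.inl ∘ .inl) w)) α
  refine ⟨fun s => s (.inr (.inr α)) / gv c.h (s ∘ .inl ∘ .inl) α, (an_cd _ _).fun_div b a, ?_⟩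
  filter_upwards [b.continuousAt.eventually_ne a] with s d f
  exact eq_div_of_mul_eq d (congrFun (Mτ_spec f) α).symm

/-- `t₁ = e τ` -/
theorem t1_eq (hw : w ∈ c.MA) : w (.inl (.inr true)) = blE c.Pg w * c.Mτ w := by
  have a := congrArg (· ∘ .inr) ((c.gv_Pg _).symm.trans (blE_spec hw))
  refine smul_left_injective ℂ (c.h_ne (Y.pv.sub hw.1.1)) (a.trans ?_)
  exact (congrArg (blE c.Pg w • ·) (Mτ_spec hw)).trans (smul_smul _ _ _)

theorem line_tn {A : Set (c.MJ → ℂ)} {v : c.MJ → ℂ} (h : ∀ᶠ ε : ℂ in 𝓝 0, w + ε • v ∈ A) :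
    v ∈ tn A w := by
  have a := ((hasFDerivAt_id (𝕜 := ℂ) (0 : ℂ)).smul_const v).const_add w
  simpa [show fderiv ℂ (fun ε : ℂ => w + ε • v) 0 = _ from a.fderiv] using fderiv_mem_tn
    (u := fun ε : ℂ => w + ε • v) (analyticAt_const.add (analyticAt_id.smul analyticAt_const)) h 1

theorem pt_add {x' t₁' t₀' u' ω'} (ε : ℂ) : c.pt x t₁ t₀ u ω + ε • c.pt x' t₁' t₀' u' ω' =
    c.pt (x + ε • x') (t₁ + ε * t₁') (t₀ + ε * t₀') (u + ε • u') (ω + ε • ω') :=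
  funext fun j => by rcases j with (j | _ | _) | k | α <;> rfl

/-- the normal direction of the sink -/
theorem tn_snk (hw : c.pt x t₁ t₀ u ω ∈ c.Snk) :
    ∃ e, c.pt 0 e 0 0 (gv c.h x) ∈ tn c.MA (c.pt x t₁ t₀ u ω) := by
  obtain ⟨⟨a, b, e, d, f⟩, rfl, i, rfl⟩ := mem_Snk.1 hw
  refine ⟨t₀ * e, line_tn (.of_forall fun ε => ?_)⟩
  simp only [pt_add, smul_zero, add_zero, mul_zero, zero_add]
  exact mem_MA.2 ⟨a, .inr i, .inl b, t₀ * e, ε, by rw [mul_smul]; exact congrArg _ d, rfl,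
    mul_comm _ _, fun k => f ((mul_eq_zero_iff_left i).1 k)⟩

/-- the normal direction of the source -/
theorem tn_src (hw : c.pt x t₁ t₀ u ω ∈ c.Src) :
    ∃ s : ℂ, c.pt 0 0 1 (s • gv c.g x) 0 ∈ tn c.MA (c.pt x t₁ t₀ u ω) := by
  obtain ⟨a, b, rfl, rfl, τ, d, rfl⟩ := mem_Src.1 hw
  refine ⟨τ / t₁, line_tn (.of_forall fun ε => ?_)⟩
  simp only [pt_add, smul_zero, add_zero, mul_zero, zero_add, mul_one]
  exact mem_MA.2 ⟨a, .inl b, .inr (smul_ne_zero d (c.h_ne (Y.pv.sub a))), t₁ / τ, τ, by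
    rw [smul_smul, smul_smul]
    exact congrArg (· • _) (by field_simp), rfl, (div_mul_cancel₀ _ d).symm,
    fun k => (div_ne_zero b d k).elim⟩

variable (c) in
theorem connM : IsConnected c.MA := by
  let f : (Y.J → ℂ) × ℂ × (Unit → ℂ) × (Unit → ℂ) → c.MJ → ℂ := fun p =>
    c.pt p.1 (p.2.2.1 ()) p.2.1 ((p.2.2.2 () * p.2.1) • gv c.g p.1)
      ((p.2.2.2 () * p.2.2.1 ()) • gv c.h p.1)
  have ne : ∀ {s : Unit → ℂ}, s ∈ ({0}ᶜ : Set _) ↔ s () ≠ 0 :=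
    not_congr ⟨fun a => congrFun a (), fun a => funext fun _ => a⟩
  have cg : Continuous (gv c.g) := continuous_iff_continuousAt.2 fun x => (an_gv _ x).continuousAt
  have ch : Continuous (gv c.h) := continuous_iff_continuousAt.2 fun x => (an_gv _ x).continuousAt
  have cf : Continuous f := continuous_pi fun j => by
    rcases j with (j | _ | _) | k | α <;> simp only [f, pt, Sum.elim_inl, Sum.elim_inr, cond_true,
      cond_false] <;> fun_prop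
  refine ((Y.conn.prod (isConnected_univ.prod ((conn_ne Unit).prod (conn_ne Unit)))).image f
    cf.continuousOn).subset_closure ?_ fun w hw => ?_
  · rintro _ ⟨⟨x, t₀, t₁, s⟩, ⟨a, -, b, d⟩, rfl⟩
    exact mem_MA.2 ⟨a, .inl (ne.1 b), .inr (smul_ne_zero (mul_ne_zero (ne.1 d) (ne.1 b))
      (c.h_ne (Y.pv.sub a))), (s ())⁻¹, _, by rw [smul_smul, inv_mul_cancel_left₀ (ne.1 d)], rfl,
      (inv_mul_cancel_left₀ (ne.1 d) _).symm, fun k => (inv_ne_zero (ne.1 d) k).elim⟩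
  refine closure_minimal (fun w hw => ?_) isClosed_closure
    (c.cutP.bl_dense (pvP Y) c.pvC hw)
  obtain ⟨x, t₁, t₀, u, ω, rfl⟩ := c.exists_pt w
  have a := (c.gv_Pg _).symm.trans (blE_spec hw.1)
  have b : u = _ := ((inv_smul_eq_iff₀ hw.2).2 (congrArg (· ∘ .inl) a)).symm
  have d : ω = _ := ((inv_smul_eq_iff₀ hw.2).2 (congrArg (· ∘ .inr) a)).symm
  have t : Tendsto (fun z : ℂ => f (x, t₀, fun _ => z, fun _ => (blE c.Pg (c.pt x t₁ t₀ u ω))⁻¹))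
      (𝓝[≠] t₁ ⊓ 𝓟 {0}ᶜ) (𝓝 (c.pt x t₁ t₀ u ω)) := by
    refine Tendsto.mono_left ?_ (inf_le_left.trans nhdsWithin_le_nhds)
    refine (Continuous.tendsto (cf.comp (by fun_prop)) t₁).trans_eq (congrArg _ ?_)
    exact pt_inj.2 ⟨rfl, rfl, rfl, (mul_smul _ _ _).trans b.symm, (mul_smul _ _ _).trans d.symm⟩
  have : (𝓝[≠] t₁ ⊓ 𝓟 ({0}ᶜ : Set ℂ)).NeBot := by
    rcases eq_or_ne t₁ 0 with rfl | g
    · rw [inf_eq_left.2 (le_principal_iff.2 self_mem_nhdsWithin)]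
      infer_instance
    · rw [inf_eq_left.2 (le_principal_iff.2 (mem_nhdsWithin_of_mem_nhds (compl_singleton_mem_nhds g)))]
      infer_instance
  refine mem_closure_of_tendsto t (mem_inf_of_right (mem_principal.2 fun z hz => ?_))
  exact mem_image_of_mem f ⟨hw.1.1.1, trivial, ne.2 hz, ne.2 (inv_ne_zero hw.2)⟩

end Ctr

/-- **Every smooth blow-up has its master space.** -/
theorem blm : BLM := fun _ Y c =>
  { pvP := Ctr.pvP Y, pvC := c.pvC, cut := c.cutP, pv := c.pvM, conn := c.connM, tinv := c.tinvM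
    src := ⟨_, c.sct_src⟩, snk := ⟨_, c.sct_snk⟩, mid := ⟨_, c.sct_mid⟩, gen := ⟨_, c.sct_gen⟩
    snk_map := fun w a => (Ctr.mem_Snk.1 ((c.pt_eta w).symm ▸ a)).1
    mid_map := fun w a => (Ctr.mem_Mid.1 ((c.pt_eta w).symm ▸ a)).1
    fix := fun _ => Ctr.fix_iff, tau := fun _ a => congrFun (Ctr.Mτ_spec a)
    tau_hol := fun _ => Ctr.holOn_Mτ
    tau_snk := fun w a => by
      obtain ⟨x, t₁, t₀, u, ω, rfl⟩ := c.exists_pt w
      obtain ⟨e, b⟩ := Ctr.tn_snk a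
      exact ⟨_, b, ne_iff.1 (c.h_ne (Y.pv.sub a.1.1.1))⟩
    t0_src := fun w a => by
      obtain ⟨x, t₁, t₀, u, ω, rfl⟩ := c.exists_pt w
      obtain ⟨e, b⟩ := Ctr.tn_src a
      exact ⟨_, b, one_ne_zero⟩ }

end Vale.Agent.P287Q
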