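import Vale.Agent.P287Q.Defs
import Vale.Agent.P287Q.Lz.HVd

/-!
# Varieties with an action of the multiplicative group as targets; the two master spaces
-/

set_option linter.unusedSectionVars false

namespace Vale.Agent.P287Q

open Set Function Topology Filter P269 P269.Lz

theorem nice_abs {R J K : Type} [Fintype R] [Fintype J] [Fintype K] [DecidableEq R]
    {F : Fam Empty Empty R J K} {K₀ : RD R} (ha : F.Abs) (h : F.Good) (hR : F.Reg K₀)
    (hB : F.B = univ) : F.Nice 0 where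
  toGood := h
  reg := ⟨_, hR⟩
  sm := ⟨_, fun l => ((Holo.MfdAt.univ l.1).congr (.of_forall fun _ => by simp [hB])).isMfd l.2⟩
  pol := ⟨∅, nofun, ha.2.trans (eq_univ_of_forall fun _ _ e => nomatch e).symm⟩
  sh := ⟨0, nofun, 0, 1, nofun, linearIndependent_empty_type, nofun, fun _ a b => (b (ha.1 a)).elim,
    fun _ _ _ => ⟨analyticAt_const, one_ne_zero⟩, fun _ a b => (b (ha.1 a)).elim,
    fun _ a b => (b (ha.1 a)).elim, fun _ _ _ _ _ =>
      iff_of_true (ha.2.ge (mem_univ _)) fun _ a b => (b (ha.1 a)).elim, fun _ _ => rfl⟩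

variable {n m : ℕ}

/-- A target with an action of `ℂˣ` whose cone is the graph of `Φ` over the cone of `B`; the torus
of the target is the torus of the blocks of `B`. -/
structure TP (B : Var n) (wt : B.J → Unit → ℤ) where
  /-- the fields -/
  J : Type
  /-- the equations -/
  K : Type
  [fJ : Fintype J]
  [fK : Fintype K]
  /-- the target -/
  P : TT B.R J K Unit
  /-- the stabilising exponent -/
  k : ℕ
  /-- the second exponent -/
  D : ℕ
  /-- the weight of the determinant of the tangent spaces of the cone -/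
  γ : B.R → ℤ
  /-- the fields of `B` -/
  ι : B.J → J
  /-- the section -/
  Φ : (B.J → ℂ) → J → ℂ
  ok : P.Ok ⟨n + Fintype.card B.R, γ⟩ k D
  mov : P.mov = univ
  zer : P.zer = ∅
  wt_ι : ∀ j, P.wt (ι j) = wt j
  tinv : TInv wt B.A
  tors : Tors B P.E.toWt P.E.cone ι id (fun r => Pi.single r 1) Φ

attribute [instance] TP.fJ TP.fK

namespace TP

variable {B : Var n} {wt : B.J → Unit → ℤ} (t : TP B wt)

/-- The presentation of `B`. -/
@[reducible] noncomputable def prs : Prs B where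
  R := B.R
  J := t.J
  K := t.K
  F := t.P.E
  k := t.k
  γ := t.γ
  ι := t.ι
  ρ := id
  M r := Pi.single r 1
  Φ := t.Φ
  nice := nice_abs ⟨t.ok.abs, rfl⟩ t.ok.good t.ok.reg rfl
  reg := t.ok.reg
  big := t.ok.big
  B := rfl
  abs := ⟨t.ok.abs, rfl⟩
  tors := t.tors

/-- The point `w` of the cone of `B` has the label `ρ`. -/
def Lb (ρ : Unit → B.R → ℤ) (w : B.J → ℂ) : Prop := w ∈ B.A ∧ OvP t.P.E.toWt t.P.wt (t.Φ w) ρ

/-- The fixed part with label `ρ` is a divisor, a copy of `V`; it is cut out transversally by the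
field `j₀`. -/
structure End (V : Var m) where
  /-- the label -/
  ρ : Unit → B.R → ℤ
  /-- the normal coordinate -/
  j₀ : t.J
  /-- the fields of `V` -/
  ι : V.J → t.J
  /-- the blocks of `V` -/
  r : V.R → B.R
  /-- the line bundles of `B` in terms of those of `V` -/
  M : B.R → V.R → ℤ
  /-- the section -/
  Φ : (V.J → ℂ) → t.J → ℂ
  dim : n = m + 1
  ok : (t.P.V ρ).Ok ⟨m + Fintype.card B.R, t.γ - t.P.w j₀⟩ t.k t.D
  tors : Tors V (t.P.V ρ).E.toWt (t.P.V ρ).E.cone ι r M Φ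
  hv : t.P.End ρ j₀

variable {t} {V : Var m} (e : t.End V)

/-- The presentation of the end. -/
@[reducible] noncomputable def End.prs : Prs V where
  R := B.R
  J := t.J
  K := t.K
  F := (t.P.V e.ρ).E
  k := t.k
  γ := t.γ - t.P.w e.j₀
  ι := e.ι
  ρ := e.r
  M := e.M
  Φ := e.Φ
  nice := nice_abs ⟨e.ok.abs, rfl⟩ e.ok.good e.ok.reg rfl
  reg := e.ok.reg
  big := e.ok.big
  B := rfl
  abs := ⟨e.ok.abs, rfl⟩
  tors := e.tors

/-- The weight of the normal bundle. -/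
noncomputable def End.c : ℤ := nw t.P.E.toWt t.P.wt e.ρ e.j₀ ()

end TP

/-- `i` projects the set `S` bijectively (modulo the tori) onto `O`, and the inverse is locally
holomorphic. -/
structure WSct {J J₀ R : Type} [Fintype J] [Fintype J₀] (π : J → R) (S : Set (J → ℂ)) (i : J₀ → J)
    (O : Set (J₀ → ℂ)) : Prop where
  map : ∀ w ∈ S, w ∘ i ∈ O
  loc : ∀ x ∈ O, ∃ s : (J₀ → ℂ) → J → ℂ, AnalyticAt ℂ s x ∧
    ∀ᶠ y in 𝓝 x, y ∈ O → s y ∈ S ∧ s y ∘ i = y
  orb : ∀ w ∈ S, ∀ w' ∈ S, w ∘ i = w' ∘ i → Orb π w w'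

/-- **The master space of a birational projection as a target.** -/
structure GA {Y X : Var n} (p : Ext Y X) where
  /-- the space -/
  B : Var (n + 1)
  /-- the weights -/
  wt : B.J → Unit → ℤ
  /-- the target -/
  t : TP B wt
  /-- the projection to `X` -/
  pX : Ext B X
  wtX : ∀ j, wt (pX.iJ j) = 0
  /-- the fields `a = ab true` and `b = ab false` -/
  ab : Bool → B.J
  ab_inj : Injective ab
  ab_blk : ∀ j, B.π j = B.π (ab true) ↔ j ∈ range ab
  ab_X : B.π (ab true) ∉ range pX.iR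
  wta : wt (ab true) = 1
  wtb : wt (ab false) = 0
  /-- the degree of `G` -/
  μ : X.R → ℕ
  /-- the form -/
  G : (X.J → ℂ) → ℂ
  frm : Frm X.π μ G
  ne : ∃ x ∈ X.A, G x ≠ 0
  /-- the section over `{G ≠ 0} × ℙ¹` -/
  φ : (X.J ⊕ Bool → ℂ) → B.J → ℂ
  gen : Sct (blP Bool X.π) B.π B.A (Sum.elim pX.iJ ab)
    {q | q ∘ .inl ∈ X.A ∧ G (q ∘ .inl) ≠ 0 ∧ q ∘ .inr ≠ 0} φ
  /-- the sink -/
  snk : t.End Y
  snk_j : snk.j₀ = t.ι (ab true)
  snk_c : snk.c = 1
  snk_iff : ∀ w, t.Lb snk.ρ w ↔ w ∈ B.A ∧ w (ab true) = 0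
  snk_X : ∀ y ∈ Y.A, Orb X.π (y ∘ p.iJ) (snk.Φ y ∘ t.ι ∘ pX.iJ)
  /-- the field `τ` -/
  jτ : B.J
  wtτ : wt jτ = 1
  wtz : ∀ j, B.π j = B.π jτ → j ≠ jτ → wt j = 0
  gen_τ : ∀ w ∈ B.A, G (w ∘ pX.iJ) ≠ 0 → (w jτ = 0 ↔ w (ab true) = 0) ∧
    ((∀ j, B.π j = B.π jτ → j ≠ jτ → w j = 0) ↔ w (ab false) = 0)
  /-- the label of the source -/
  ρs : Unit → B.R → ℤ
  src_iff : ∀ w, t.Lb ρs w ↔ w ∈ B.A ∧ ∀ j, B.π j = B.π jτ → j ≠ jτ → w j = 0
  src : WSct B.π {w | t.Lb ρs w} pX.iJ X.A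
  src_b : ∀ w, t.Lb ρs w → w (ab false) = 0
  src_τ : ρs () (B.π jτ) = 1
  src_ne : ρs ≠ snk.ρ
  oth_τ : ∀ ρ w, t.Lb ρ w → ρ ≠ ρs → ρ () (B.π jτ) = 0
  oth : ∀ ρ w, t.Lb ρ w → ρ = ρs ∨ ρ = snk.ρ ∨ G (w ∘ pX.iJ) = 0

namespace Ctr

variable {Y : Var n} (c : Ctr Y)

/-- The blow-up of `Y × ℙ¹` along `Z × 0`. -/
abbrev W (h : c.BlM) : Var (n + 1) :=
  { J := c.MJ, R := Option (Option Y.R), π := c.Mπ, A := c.MA, pv := h.pv, conn := h.conn }

/-- The projection to `Y`. -/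
def pY (h : c.BlM) : Ext (c.W h) Y :=
  ⟨.inl ∘ .inl, some ∘ some, Sum.inl_injective.comp Sum.inl_injective,
    (Option.some_injective _).comp (Option.some_injective _), fun _ => rfl, fun _ a => a.1.1⟩

/-- The labels: `u` on the block of the blow-up, `v` on the block of the line. -/
def lb (_ : Ctr Y) (u v : ℤ) : Unit → Option (Option Y.R) → ℤ :=
  fun _ o => o.elim u fun o => o.elim v 0

/-- The weight of the field `s`. -/
def ws : Option (Option Y.R) → ℤ := fun o => o.elim 1 fun o => o.elim 0 fun r => -c.δ r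

end Ctr

/-- **The master space of a blow-up as a target**: the fields are those of `W` and `s`. -/
structure GB {Y : Var n} (c : Ctr Y) where
  h : c.BlM
  /-- the target -/
  t : TP (c.W h) c.Mwt
  /-- the field `s` -/
  js : t.J
  all : ∀ j, j = js ∨ j ∈ range t.ι
  js_w : t.P.w js = c.ws
  js_wt : t.P.wt js = 1
  js_Φ : ∀ w ∈ c.MA, t.Φ w js = c.Mτ w
  /-- the source -/
  src : t.End Y
  src_ρ : src.ρ = c.lb 1 1
  src_j : src.j₀ = t.ι (.inl (.inr false))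
  src_ι : src.ι = t.ι ∘ .inl ∘ .inl
  src_r : src.r = some ∘ some
  src_iff : ∀ w, t.Lb (c.lb 1 1) w ↔ w ∈ c.Src
  /-- the sink -/
  snk : t.End c.bl
  snk_ρ : snk.ρ = c.lb 0 0
  snk_j : snk.j₀ = js
  snk_ι : snk.ι = t.ι ∘ Sum.map .inl .inl
  snk_r : snk.r = Option.map some
  snk_iff : ∀ w, t.Lb (c.lb 0 0) w ↔ w ∈ c.Snk
  mid_iff : ∀ w, t.Lb (c.lb 1 0) w ↔ w ∈ c.Mid
  lbl : ∀ ρ w, t.Lb ρ w → ρ = c.lb 1 1 ∨ ρ = c.lb 0 0 ∨ ρ = c.lb 1 0

/-- The master space of a birational projection is a target. -/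
def WGA : Prop := ∀ (n : ℕ) (Y X : Var n) (p : Ext Y X), Nonempty (Prs Y) → Nonempty (Prs X) →
  Nonempty (Master p) → Nonempty (GA p)

/-- The master space of a blow-up is a target. -/
def WGB : Prop := ∀ (n : ℕ) (Y : Var n) (c : Ctr Y), Nonempty (Prs Y) → c.BlM → Nonempty (GB c)

end Vale.Agent.P287Q
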