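import Vale.Agent.P287Q.Wg.Defs
import Vale.Agent.P287Q.Lz.HVo
import Vale.Agent.P287Q.Pv.Fam
import Vale.Agent.P287Q.Us.Sct
import Vale.Agent.P287Q.Emb.Vert

/-!
# Targets with an action of the multiplicative group: labels and ends
-/

set_option linter.unusedSectionVars false

namespace Vale.Agent.P287Q

open Set Function Topology Filter Module MvPolynomial P269 P269.Holo P269.Lz

variable {n m : ℕ} {B : Var n} {wt : B.J → Unit → ℤ}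

namespace TP

theorem zpow_inj {a b : ℤ} (h : (2 : ℂ) ^ a = 2 ^ b) : a = b :=
  zpow_right_injective₀ (a := (2 : ℝ)) two_pos (by norm_num) (by simpa using congrArg (‖·‖) h)

theorem chr_inj {R : Type} [Fintype R] [DecidableEq R] {a b : R → ℤ}
    (h : ∀ t : R → ℂ, IsUnit t → ∏ r, t r ^ a r = ∏ r, t r ^ b r) : a = b := funext fun r => by
  have e : ∀ c : R → ℤ, ∏ x, update (1 : R → ℂ) r 2 x ^ c x = 2 ^ c r := fun c => by
    rw [Finset.prod_eq_single r (fun x _ f => by simp [f]) (by simp), update_self]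
  have := h (update 1 r 2) (unit_iff.2 fun x => by by_cases f : x = r <;> simp [f])
  rw [e, e] at this
  exact zpow_inj this

theorem tw_unit {J : Type} (w : J → Unit → ℤ) (τ : Unit → ℂ) (y : J → ℂ) (j : J) :
    tw w τ y j = τ () ^ w j () * y j := by simp [tw]

/-- **Varieties whose canonical bundle is given by a character.** -/
theorem exists_std [Nonempty B.J] (hT : TInv wt B.A) {γ : B.R → ℤ}
    (hD : Det B.π B.A (n + Fintype.card B.R) γ) : Nonempty (TP B wt) := by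
  obtain ⟨k, δ, g, ω, a, b, c⟩ := chow _ _ _ B.π wt B.A n B.pv hT
  let P : TT B.R B.J (Fin k) Unit := ⟨bw B.π, fun _ => 3, fun _ => δ, g, Ust B.π, univ, ∅, wt, ω⟩
  have i := fam_inv (π := B.π) a.hom
  refine ⟨⟨B.J, Fin k, P, 30, (2 * 30 + 4 + 30 * ∑ _ : B.R, |3| : ℤ).toNat, γ, id, id,
    ⟨fam_good a.hom b fun i => (c i).1, fam_reg a B.pv hD, fun _ h => (h trivial).elim,
      ⟨i.hom, fun q α h β e s => ?_, i.openU, fun u hu z hz r => ?_, isClosed_univ,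
        fun _ _ _ _ => trivial, fun _ _ _ _ _ => trivial, empty_disjoint _,
        isClosed_univ.isLocallyClosed, fun _ _ _ _ => trivial⟩,
      fam_big le_rfl, Int.self_le_toNat _⟩, rfl, rfl, fun _ => rfl, hT,
    injective_id, injective_id, fun _ => rfl, fun z h => (fam_cone a).1 h, fun _ => rfl,
    fun y h => (fam_cone a).2 h, fun _ _ => rfl, fun y _ => .of_an analyticAt_id,
    fun u _ y _ => ?_, fun z _ => ⟨1, isUnit_one, ?_⟩⟩⟩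
  · exact (add_eq_left.2 (Fintype.sum_empty _)).trans ((c q).2 α (support_map_subset _ _ h) s)
  · obtain ⟨j, e, f⟩ := hz r
    exact ⟨j, e, mul_ne_zero (mul_ne_zero (prod_zpow_ne (unit_iff.1 (Prod.isUnit_iff.1 hu).1) _)
      (prod_zpow_ne (unit_iff.1 (Prod.isUnit_iff.1 hu).2) _)) f⟩
  · simp only [prod_single]
    exact (fam_actT (π := B.π) (δ := δ) (g := g) (1, u) (0, y)).symm
  · exact (Prod.ext (Subsingleton.elim _ _) rfl : z = (0, z.2)).trans (Wt.actT_one _ _).symm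

variable (t : TP B wt) {ρ ρ' : Unit → B.R → ℤ} {w w' : B.J → ℂ} {z : (Empty → ℂ) × (t.J → ℂ)}

theorem actE (a : (Empty → ℂ) × (B.R → ℂ)) (z : (Empty → ℂ) × (t.J → ℂ)) :
    t.P.E.actT a z = (0, tw t.P.w a.2 z.2) :=
  Prod.ext (Subsingleton.elim _ _) (funext fun j => by simp [Wt.actT, tw])

theorem w_ι (j : B.J) : t.P.w (t.ι j) = Pi.single (B.π j) 1 := t.tors.w j

theorem tw_ι (a : B.R → ℂ) (y : t.J → ℂ) : tw t.P.w a y ∘ t.ι = scl B.π a (y ∘ t.ι) :=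
  funext fun j => by simp only [tw, scl, comp_apply, t.w_ι, prod_single]

theorem twT_ι (τ : Unit → ℂ) (y : t.J → ℂ) : tw t.P.wt τ y ∘ t.ι = tw wt τ (y ∘ t.ι) :=
  funext fun j => by simp only [tw, comp_apply, t.wt_ι]

theorem Φ_ι (h : w ∈ B.A) (j : B.J) : t.Φ w (t.ι j) = w j := congrFun (t.tors.sec w h) j

/-- The cone is a graph. -/
theorem mem_cone : z ∈ t.P.E.cone ↔ z.2 ∘ t.ι ∈ B.A ∧ z.2 = t.Φ (z.2 ∘ t.ι) := by
  refine ⟨fun h => ?_, fun h => mem_of_eq_of_mem (Prod.ext (Subsingleton.elim _ _) h.2)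
    (t.tors.mem _ h.1)⟩
  have a := t.tors.maps z h
  obtain ⟨u, -, e⟩ := t.tors.orb z h
  have f := congrArg Prod.snd (e.trans (t.actE _ _))
  have g := congrArg (· ∘ t.ι) f
  simp only [t.tw_ι, t.tors.sec _ a] at g
  obtain rfl : 1 = u := scl_inj (B.pv.sub a) ((scl_one _).trans g)
  exact ⟨a, f.trans (tw_one _ _)⟩

theorem Φ_mem (h : w ∈ B.A) : (0, t.Φ w) ∈ t.P.E.cone := t.tors.mem w h

theorem Φ_scl {a : B.R → ℂ} (ha : IsUnit a) (h : w ∈ B.A) :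
    t.Φ (scl B.π a w) = tw t.P.w a (t.Φ w) := by
  simpa only [prod_single] using congrArg Prod.snd ((t.tors.eqv a ha w h).trans (t.actE _ _))

theorem Φ_tw {τ : Unit → ℂ} (hτ : IsUnit τ) (h : w ∈ B.A) :
    t.Φ (tw wt τ w) = tw t.P.wt τ (t.Φ w) := by
  have a := TT.mem_E (l := 0) (t.ok.invT.cone_act (t := (τ, 1)) (Prod.isUnit_iff.2 ⟨hτ, isUnit_one⟩)
    (TT.mem_fam (l := 0) (t.Φ_mem h) trivial))
  have e : (t.P.ET.actT (τ, 1) (0, t.Φ w)).2 = tw t.P.wt τ (t.Φ w) :=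
    funext fun j => by simp [Wt.actT, tw]
  rw [e] at a
  simpa only [t.twT_ι, t.tors.sec _ h] using (t.mem_cone.1 a).2.symm

theorem nw_ι (ρ : Unit → B.R → ℤ) (j : B.J) :
    nw t.P.E.toWt t.P.wt ρ (t.ι j) () = wt j () - ρ () (B.π j) := by
  simp [nw, t.wt_ι, t.w_ι, Pi.single_apply]

theorem nw_ne {j : t.J} :
    nw t.P.E.toWt t.P.wt ρ j ≠ 0 ↔ t.P.wt j () ≠ ∑ r, ρ () r * t.P.w j r :=
  not_congr (nw_eq_zero.trans Unique.forall_iff)

theorem ι_mv {j : B.J} : t.ι j ∈ t.P.mv ρ ↔ wt j () ≠ ρ () (B.π j) :=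
  (not_congr (_root_.funext_iff.trans Unique.forall_iff)).trans (by
    rw [show (default : Unit) = () from rfl, t.nw_ι, Pi.zero_apply, sub_eq_zero])

theorem tw_eq (h : ∀ j, wt j () ≠ ρ () (B.π j) → w j = 0) (τ : Unit → ℂ) :
    tw wt τ w = scl B.π (fun r => τ () ^ ρ () r) w := funext fun j => by
  by_cases e : wt j () = ρ () (B.π j)
  · rw [tw_unit, e, scl]
  · rw [tw_unit, scl, h j e, mul_zero, mul_zero]

/-- **Labels are seen by the fields of the variety.** -/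
theorem Lb_iff : t.Lb ρ w ↔ w ∈ B.A ∧ ∀ j, wt j () ≠ ρ () (B.π j) → w j = 0 := by
  refine and_congr_right fun h => ⟨fun a j e => (t.Φ_ι h j).symm.trans (a _ (t.ι_mv.2 e)),
    fun a j e => by_contra fun f => t.nw_ne.1 e (zpow_inj ?_)⟩
  have u : IsUnit fun _ : Unit => (2 : ℂ) := unit_iff.2 fun _ => two_ne_zero
  have b := congrFun ((t.Φ_tw u h).symm.trans ((congrArg t.Φ (tw_eq a _)).trans
    (t.Φ_scl (unit_iff.2 fun _ => zpow_ne_zero _ two_ne_zero) h))) j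
  rw [tw_unit, tw, mul_left_inj' f] at b
  simp only [b, ← zpow_mul, zpow_fsum (two_ne_zero' ℂ)]

theorem mem_V : z ∈ (t.P.V ρ).E.cone ↔ t.Lb ρ (z.2 ∘ t.ι) ∧ z.2 = t.Φ (z.2 ∘ t.ι) := by
  rw [TT.mem_zro_E, t.mem_cone, Lb, and_right_comm]
  exact ⟨fun h => ⟨⟨h.1.1, h.2 ▸ h.1.2⟩, h.2⟩, fun h => ⟨⟨h.1.1, h.2.symm ▸ h.1.2⟩, h.2⟩⟩

theorem mem_Fix : z ∈ t.P.Fix ↔ (∃ ρ, t.Lb ρ (z.2 ∘ t.ι)) ∧ z.2 = t.Φ (z.2 ∘ t.ι) :=
  ⟨fun ⟨a, ρ, b⟩ => (t.mem_V.1 (TT.mem_zro_E.2 ⟨a, b⟩)).imp_left fun c => ⟨ρ, c⟩,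
    fun ⟨⟨ρ, a⟩, b⟩ => t.P.cone_V ρ (t.mem_V.2 ⟨a, b⟩)⟩

variable {t}

theorem Lb.mem (h : t.Lb ρ w) : w ∈ B.A := h.1

theorem Lb.eq (h : t.Lb ρ w) {j : B.J} (e : w j ≠ 0) : ρ () (B.π j) = wt j () :=
  by_contra fun f => e ((t.Lb_iff.1 h).2 j (Ne.symm f))

theorem Lb.mem_V (h : t.Lb ρ w) : (0, t.Φ w) ∈ (t.P.V ρ).E.cone :=
  TT.mem_zro_E.2 ⟨t.Φ_mem h.1, h.2⟩

theorem Lb.unique (h : t.Lb ρ w) (h' : t.Lb ρ' w) : ρ = ρ' := funext fun _ => funext fun r => by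
  obtain ⟨j, rfl, e⟩ := B.pv.sub h.1 r
  exact (h.eq e).trans (h'.eq e).symm

theorem Lb.scl (h : t.Lb ρ w) {a : B.R → ℂ} (ha : IsUnit a) : t.Lb ρ (scl B.π a w) :=
  t.Lb_iff.2 ⟨B.pv.inv a ha w h.1, fun j e => mul_eq_zero_of_right _ ((t.Lb_iff.1 h).2 j e)⟩

theorem Lb.of_orb (h : t.Lb ρ w) (e : Orb B.π w w') : t.Lb ρ w' :=
  let ⟨_, a, b⟩ := e; b ▸ h.scl a

/-- Labelled points are fixed. -/
theorem Lb.orb (h : t.Lb ρ w) {τ : Unit → ℂ} (hτ : IsUnit τ) : Orb B.π w (tw wt τ w) :=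
  ⟨_, unit_iff.2 fun _ => zpow_ne_zero _ (unit_iff.1 hτ _), tw_eq (t.Lb_iff.1 h).2 τ⟩

/-- Blocks of weight zero. -/
theorem Lb.zero (h : t.Lb ρ w) {r : B.R} {j : B.J} (e : B.π j = r) (e' : wt j = 0) (f : w j ≠ 0) :
    ρ () r = 0 := e ▸ (h.eq f).trans (congrFun e' ())

theorem Lb.ext {X : Var m} (h : t.Lb ρ w) (p : Ext B X) (hp : ∀ j, wt (p.iJ j) = 0) (r : X.R) :
    ρ () (p.iR r) = 0 :=
  let ⟨j, a, b⟩ := X.pv.sub (p.map w h.1) r
  h.zero ((p.blk j).trans (congrArg _ a)) (hp j) b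

variable (t) in
/-- Fixed points have a label. -/
theorem exists_Lb (h : w ∈ B.A) (e : ∀ τ, IsUnit τ → Orb B.π w (tw wt τ w)) : ∃ ρ, t.Lb ρ w := by
  choose s a b using B.pv.sub h
  obtain ⟨u, -, c⟩ := e (fun _ => 2) (unit_iff.2 fun _ => two_ne_zero)
  have d : ∀ j, w j ≠ 0 → (2 : ℂ) ^ wt j () = u (B.π j) := fun j f =>
    mul_right_cancel₀ f ((tw_unit _ _ _ _).symm.trans (congrFun c j))
  exact ⟨fun _ r => wt (s r) (), t.Lb_iff.2 ⟨h, fun j f => by_contra fun g =>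
    f (zpow_inj (by rw [d j g, d _ (b _), a]))⟩⟩

theorem Lb.ev (h : t.Lb ρ w) : ∀ᶠ s in 𝓝 w, ∀ ρ', t.Lb ρ' s → ρ' = ρ := by
  choose s a b using B.pv.sub h.1
  refine (eventually_all.2 fun r =>
    (continuous_apply (s r)).continuousAt.eventually_ne (b r)).mono fun y c ρ' d => ?_
  exact funext fun _ => funext fun r => a r ▸ (d.eq (c r)).trans (h.eq (b r)).symm

/-- The label is constant on a connected set of fixed points. -/
theorem Lb.const {S : Set (B.J → ℂ)} (hS : IsPreconnected S) (e : ∀ w ∈ S, ∃ ρ, t.Lb ρ w)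
    (h : t.Lb ρ w) (hw : w ∈ S) (hw' : w' ∈ S) : t.Lb ρ w' := by
  choose! f hf using e
  have : f w = f w' := hS.induction₂' (fun x y => f x = f y) (fun x hx =>
    eventually_nhdsWithin_iff.2 ((hf x hx).ev.mono fun y a b =>
      ⟨(a _ (hf y b)).symm, a _ (hf y b)⟩)) (fun _ _ _ _ _ _ => Eq.trans) hw hw'
  rw [h.unique (hf w hw), this]
  exact hf w' hw'

variable (t)

theorem vert_eq (h : z ∈ t.P.E.cone) : t.P.E.vert z = tn (t.P.E.fc 0) z.2 :=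
  let ⟨_, a⟩ := t.ok.reg.loc z h
  (Emb.vert_of_regAt t.ok.good.toInv rfl rfl t.ok.abs (.of_forall fun _ => by
    rw [Subsingleton.elim z.1 0]; rfl) h a).2

/-- Tangent vectors lift. -/
theorem lift_tn (h : w ∈ B.A) {v : B.J → ℂ} (hv : v ∈ tn B.A w) :
    ∃ η ∈ tn (t.P.E.fc 0) (t.Φ w), η ∘ t.ι = v := by
  obtain ⟨Ψ, a, b⟩ := t.tors.hol w h
  have a2 : AnalyticAt ℂ (fun s => Ψ s ∘ t.ι) w := (an_comp_crd t.ι _).comp a
  refine ⟨fderiv ℂ Ψ w v, b.self_of_nhds h ▸ fderiv_map_tn (B.pv.mfd w h) a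
    (b.mono fun s c d => c d ▸ t.Φ_mem d) hv, ?_⟩
  have := hv _ (a2.fun_sub analyticAt_id) (b.mono fun s c d => by
    rw [← c d, t.tors.sec s d]; exact sub_self _)
  rw [fderiv_fun_sub a2.differentiableAt differentiableAt_id, fderiv_id, _root_.sub_apply,
    sub_eq_zero] at this
  rwa [fderiv_comp_an (an_pre _ _) a, ContinuousLinearMap.comp_apply, fderiv_pre] at this

theorem mv_ne (h : t.Lb ρ w) (j : B.J) : (t.P.mov \ t.P.mv ρ).Nonempty :=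
  let ⟨i, _, b⟩ := B.pv.sub h.1 (B.π j)
  ⟨t.ι i, t.mov.ge trivial, fun c => t.ι_mv.1 c (h.eq b).symm⟩

/-- The hypothesis on an end, for any field. -/
theorem hv_of' {j : t.J} (h : t.Lb ρ w) (i : B.J) (mv : j ∈ t.P.mv ρ)
    (cut : ∀ w ∈ B.A, t.Φ w j = 0 → t.Lb ρ w)
    (tr : ∀ w, t.Lb ρ w → ∃ η ∈ tn (t.P.E.fc 0) (t.Φ w), η j ≠ 0) : t.P.End ρ j where
  mov := t.mov.ge trivial
  mv := mv
  ne := t.mv_ne h i
  cut z a b := let ⟨c, d⟩ := t.mem_cone.1 a; d ▸ (cut _ c (d ▸ b)).2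
  tr z a b := by
    obtain ⟨c, d⟩ := t.mem_cone.1 a
    rw [t.vert_eq a, d]
    exact tr _ (cut _ c (d ▸ b))

/-- The hypothesis on an end, for a field of the variety. -/
theorem hv_of {j : B.J} (h : t.Lb ρ w) (mv : wt j () ≠ ρ () (B.π j))
    (cut : ∀ w ∈ B.A, w j = 0 → t.Lb ρ w)
    (tr : ∀ w, t.Lb ρ w → ∃ v ∈ tn B.A w, v j ≠ 0) : t.P.End ρ (t.ι j) :=
  t.hv_of' h j (t.ι_mv.2 mv) (fun w a b => cut w a (t.Φ_ι a j ▸ b)) fun w a =>
    let ⟨_, b, c⟩ := tr w a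
    let ⟨η, d, e⟩ := t.lift_tn a.1 b
    ⟨η, d, (congrFun e j).trans_ne c⟩

/-- **Construction of an end.** -/
theorem exists_end {V : Var m} (hn : n = m + 1) {j₀ : t.J} (hv : t.P.End ρ j₀) {i : V.J → B.J}
    {r : V.R → B.R} (hi : Injective i) (hr : Injective r) (hb : ∀ j, B.π (i j) = r (V.π j))
    {s : (V.J → ℂ) → B.J → ℂ} (hs : Sct V.π B.π {w | t.Lb ρ w} i V.A s)
    (hm : ∀ w, t.Lb ρ w → w ∘ i ∈ V.A) : ∃ e : t.End V,
      e.ρ = ρ ∧ e.j₀ = j₀ ∧ e.ι = t.ι ∘ i ∧ e.r = r ∧ e.Φ = fun y => t.Φ (s y) := by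
  obtain ⟨M, e⟩ := hs.eqv
  have o := hv.ok_V t.ok
  rw [show RD.sub ⟨n + Fintype.card B.R, t.γ⟩ ⟨1, t.P.w j₀⟩ =
    ⟨m + Fintype.card B.R, t.γ - t.P.w j₀⟩ from congrArg (RD.mk · _)
      (show n + _ - 1 = _ by omega)] at o
  refine ⟨⟨ρ, j₀, t.ι ∘ i, r, M, fun y => t.Φ (s y), hn, o, ⟨t.tors.inj.comp hi, hr,
    fun j => hb j ▸ t.w_ι _, fun z a => hm _ (t.mem_V.1 a).1, fun x => chr_inj fun u a => ?_,
    fun y a => (hs.mem y a).mem_V, fun y a => ?_, fun y a => ?_, fun u a y b => ?_,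
    fun z a => ?_⟩, hv⟩, rfl, rfl, rfl, rfl, rfl⟩
  · obtain ⟨y, b⟩ := V.conn.nonempty
    have c := hs.inv _ (V.pv.inv u a y b)
    rw [e u a y b, scl_comp hb, hs.inv y b] at c
    exact (congrFun (scl_inj (V.pv.sub b) c) x).trans (prod_single u x).symm
  · exact (congrArg (· ∘ i) (t.tors.sec _ (hs.mem y a).1)).trans (hs.inv y a)
  · exact (t.tors.hol _ (hs.mem y a).1).comp (hs.hol y a) a (.of_forall fun x b => (hs.mem x b).1)
  · rw [e u a y b, t.Φ_scl (unit_iff.2 fun _ => prod_zpow_ne (unit_iff.1 a) _) (hs.mem y b).1]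
    exact (t.actE (1, _) (0, _)).symm
  · obtain ⟨b, c⟩ := t.mem_V.1 a
    obtain ⟨u, d, f⟩ := hs.orb _ b (hm _ b)
    refine ⟨u, d, Eq.trans (Prod.ext (Subsingleton.elim _ _) ?_) (t.actE (1, u) (0, _)).symm⟩
    exact c.trans ((congrArg t.Φ f).trans (t.Φ_scl d (hs.mem _ (hm _ b)).1))

end TP

end Vale.Agent.P287Q
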