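import Vale.Agent.P287Q.Wg.TP
import Vale.Agent.P287Q.Top.BLPRS
import Vale.Agent.P287Q.Us.MasD

/-!
# The master space of a birational projection is a target
-/

namespace Vale.Agent.P287Q

open Set Function Topology Filter P269

variable {n : ℕ}

theorem TP.Lb_lbl {B : Var n} {wt : B.J → Unit → ℤ} (t : TP B wt) {ρ : Unit → B.R → ℤ}
    {w : B.J → ℂ} : t.Lb ρ w ↔ w ∈ B.A ∧ Lbl B.π wt ρ w :=
  t.Lb_iff.trans (and_congr_right fun _ => forall_congr' fun _ => imp_congr_left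
    ⟨fun h e => h (sub_eq_zero.1 (congrFun e ())), fun h e => h (funext fun _ => sub_eq_zero.2 e)⟩)

theorem wga : WGA := by
  rintro n Y X p ⟨PY⟩ ⟨PX⟩ ⟨M₀⟩
  obtain ⟨M⟩ := M₀.masD PX.det PY.det
  have : Nonempty M.B.J := ⟨M.jτ⟩
  obtain ⟨t⟩ := TP.exists_std M.tinv M.det
  have hk : ∀ w, t.Lb M.ρk w ↔ w ∈ M.B.A ∧ w (M.ab true) = 0 := fun w =>
    t.Lb_lbl.trans (and_congr_right (M.snk_iff w))
  obtain ⟨y, hy⟩ := Y.conn.nonempty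
  have hv := t.hv_of ((hk _).2 (M.snk.mem y hy)) (j := M.ab true)
    (by rw [M.wta, M.snk_a]; exact one_ne_zero) (fun w a b => (hk w).2 ⟨a, b⟩)
    fun w h => M.tr w h.mem ((hk w).1 h).2
  obtain ⟨e, e1, e2, -, -, e5⟩ := t.exists_end rfl hv M.iy_inj M.ry_inj M.iy_blk (s := M.Φ)
    (by simpa only [hk] using M.snk) fun w h => M.snk_map w h.mem ((hk w).1 h).2
  refine ⟨⟨M.B, M.wt, t, M.pX, M.wtX, M.ab, M.ab_inj, M.ab_blk, M.ab_X, M.wta, M.wtb, M.μ, M.G,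
    M.frm, M.ne, M.φ, M.gen, e, e2, ?_, e1 ▸ hk, fun y hy => ?_, M.jτ, M.wtτ, M.wtz, M.gen_τ, M.ρs,
    fun w => t.Lb_lbl.trans (and_congr_right (M.src_iff w)),
    ⟨fun w h => M.pX.map w h.mem, fun x hx => ?_, fun w h w' h' =>
      M.src_orb w h.mem (t.Lb_lbl.1 h).2 w' h'.mem (t.Lb_lbl.1 h').2⟩,
    fun w h => M.src_b w h.mem (t.Lb_lbl.1 h).2, M.src_τ, e1 ▸ M.src_ne,
    fun ρ w h => M.oth_τ ρ w h.mem (t.Lb_lbl.1 h).2,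
    fun ρ w h => e1 ▸ M.oth ρ w h.mem (t.Lb_lbl.1 h).2⟩⟩
  · rw [TP.End.c, e1, e2, t.nw_ι, M.wta, M.snk_a]
    rfl
  · rw [e5, show t.Φ (M.Φ y) ∘ t.ι ∘ M.pX.iJ = M.Φ y ∘ M.pX.iJ from
      funext fun j => t.Φ_ι (M.snk.mem y hy).1 _]
    exact M.snk_X y hy
  · obtain ⟨s, h1, h2⟩ := M.src_loc x hx
    exact ⟨s, h1, h2.mono fun y a b => ⟨t.Lb_lbl.2 (a b).1, (a b).2⟩⟩

end Vale.Agent.P287Q
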