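import Vale.Agent.P287Q.Wg.Gr
import Vale.Agent.P287Q.Wg.Blm
import Vale.Agent.P287Q.Wg.Defs
import Vale.Agent.P287Q.Pv.DetC

/-!
# The master space of a smooth blow-up as a target
-/

set_option linter.unusedSectionVars false

namespace Vale.Agent.P287Q

open Set Function Topology Filter P269 P269.Holo P269.Lz MvPolynomial Wg

namespace Ctr

variable {n : ℕ} {Y : Var n} {c : Ctr Y} {x : Y.J → ℂ} {t₁ t₀ : ℂ} {u : Fin c.k → ℂ}
  {ω : Sel Y.π → ℂ} {w : c.MJ → ℂ}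

theorem prod_ws (t : Option (Option Y.R) → ℂ) :
    ∏ r, t r ^ c.ws r = t none * (∏ r, t (some (some r)) ^ c.δ r)⁻¹ := by
  simp [ws, Fintype.prod_option]

theorem Mτ_scl {t} (ht : IsUnit t) (hw : w ∈ c.MA) :
    c.Mτ (scl c.Mπ t w) = (∏ r, t r ^ c.ws r) * c.Mτ w := by
  have a := c.pvM.inv t ht w hw
  have b := Mτ_spec hw
  obtain ⟨x, t₁, t₀, u, ω, rfl⟩ := c.exists_pt w
  have d : ∏ r, t (some (some r)) ^ c.δ r ≠ 0 :=
    Finset.prod_ne_zero_iff.2 fun _ _ => zpow_ne_zero _ (unit_iff.1 ht _)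
  rw [scl_pt] at a ⊢
  refine Mτ_eq a ?_
  rw [gv_scl c.whom_h (unit_iff.2 fun _ => unit_iff.1 ht _), prod_ws, smul_smul, mul_right_comm,
    cha, inv_mul_cancel_right₀ d, mul_smul]
  exact congrArg _ b

theorem Mτ_tw {τ} (ht : IsUnit τ) (hw : w ∈ c.MA) : c.Mτ (tw c.Mwt τ w) = τ () * c.Mτ w := by
  have a := c.tinvM τ ht w hw
  have b := Mτ_spec hw
  obtain ⟨x, t₁, t₀, u, ω, rfl⟩ := c.exists_pt w
  rw [tw_pt] at a ⊢
  exact Mτ_eq a ((congrArg _ b).trans (smul_smul _ _ _))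

theorem Mτ_zero (hw : c.pt x t₁ t₀ u ω ∈ c.MA) : c.Mτ (c.pt x t₁ t₀ u ω) = 0 ↔ ω = 0 :=
  ⟨fun a => (Mτ_spec hw).trans (by rw [a, zero_smul]),
    fun a => Mτ_eq hw (a.trans (zero_smul _ _).symm)⟩

theorem lb_cases {ρ : Unit → Option (Option Y.R) → ℤ} (hw : w ∈ c.MA)
    (h : ∀ j, c.Mwt j () ≠ ρ () (c.Mπ j) → w j = 0) : ρ = c.lb (ρ () none) (ρ () (some none)) :=
  funext₂ fun ⟨⟩ o => by
    rcases o with _ | _ | r
    exacts [rfl, rfl, let ⟨j, a, b⟩ := Y.pv.sub hw.1.1 r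
      a ▸ (not_not.1 fun d => b (h (.inl (.inl j)) d)).symm]

theorem lb_iff {a b : ℤ} :
    (∀ j, c.Mwt j () ≠ c.lb a b () (c.Mπ j) → c.pt x t₁ t₀ u ω j = 0) ↔
      (1 ≠ b → t₁ = 0) ∧ (0 ≠ b → t₀ = 0) ∧ (0 ≠ a → u = 0) ∧ (1 ≠ a → ω = 0) :=
  ⟨fun h => ⟨h (.inl (.inr true)), h (.inl (.inr false)), fun d => funext fun k => h (.inr (.inl k)) d,
    fun d => funext fun α => h (.inr (.inr α)) d⟩, fun ⟨d, e, f, g⟩ j i => by
      rcases j with (j | _ | _) | k | α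
      exacts [(i rfl).elim, e i, d i, congrFun (f i) k, congrFun (g i) α]⟩

section tt

variable {K : Type} [Fintype K] {χ : K → Option (Option Y.R) → ℤ} {κ : K → Unit → ℤ}
  {g : K → MvPolynomial (c.MJ ⊕ Unit) ℂ}

variable (c χ κ g) in
/-- The target with the field `s`. -/
noncomputable abbrev PT : TT (Option (Option Y.R)) (c.MJ ⊕ Unit) K Unit :=
  grT c.Mπ c.Mwt (fun _ => c.ws) 1 χ κ g

variable (c) in
/-- The section. -/
noncomputable def Φs (w : c.MJ → ℂ) : c.MJ ⊕ Unit → ℂ := Sum.elim w fun _ => c.Mτ w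

theorem nw_inl {ρ} (j : c.MJ) : nw (c.PT χ κ g).E.toWt (c.PT χ κ g).wt ρ (.inl j) ≠ 0 ↔
    c.Mwt j () ≠ ρ () (c.Mπ j) := by
  simp [ne_iff, nw, bw, Pi.single_apply, sub_eq_zero, Unique.exists_iff]

theorem nw_inr {a b : ℤ} (i : Unit) :
    nw (c.PT χ κ g).E.toWt (c.PT χ κ g).wt (c.lb a b) (.inr i) ≠ 0 ↔ 1 ≠ a := by
  simp [ne_iff, nw, ws, lb, Fintype.sum_option, sub_eq_zero]

theorem ov_iff {a b : ℤ} (hw : c.pt x t₁ t₀ u ω ∈ c.MA) :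
    OvP (c.PT χ κ g).E.toWt (c.PT χ κ g).wt (c.Φs (c.pt x t₁ t₀ u ω)) (c.lb a b) ↔
      (1 ≠ b → t₁ = 0) ∧ (0 ≠ b → t₀ = 0) ∧ (0 ≠ a → u = 0) ∧ (1 ≠ a → ω = 0) :=
  ⟨fun h => lb_iff.1 fun j d => h (.inl j) ((nw_inl j).2 d), fun h => Sum.rec
    (fun j d => lb_iff.2 h j ((nw_inl j).1 d)) fun i d => (Mτ_zero hw).2 (h.2.2.2 ((nw_inr i).1 d))⟩

theorem ov_src (hw : w ∈ c.MA) :
    OvP (c.PT χ κ g).E.toWt (c.PT χ κ g).wt (c.Φs w) (c.lb 1 1) ↔ w ∈ c.Src := by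
  obtain ⟨x, t₁, t₀, u, ω, rfl⟩ := c.exists_pt w
  exact (ov_iff hw).trans ⟨fun a => ⟨hw, a.2.1 zero_ne_one⟩, fun a => let b := mem_Src.1 a
    ⟨fun d => (d rfl).elim, fun _ => b.2.2.1, fun _ => b.2.2.2.1, fun d => (d rfl).elim⟩⟩

theorem ov_snk (hw : w ∈ c.MA) :
    OvP (c.PT χ κ g).E.toWt (c.PT χ κ g).wt (c.Φs w) (c.lb 0 0) ↔ w ∈ c.Snk := by
  obtain ⟨x, t₁, t₀, u, ω, rfl⟩ := c.exists_pt w
  exact (ov_iff hw).trans ⟨fun a => ⟨hw, congrFun (a.2.2.2 one_ne_zero)⟩, fun a =>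
    let b := mem_Snk.1 a
    ⟨fun _ => b.2.1, fun d => (d rfl).elim, fun d => (d rfl).elim, fun _ => b.2.2.2⟩⟩

theorem ov_mid (hw : w ∈ c.MA) :
    OvP (c.PT χ κ g).E.toWt (c.PT χ κ g).wt (c.Φs w) (c.lb 1 0) ↔ w ∈ c.Mid := by
  obtain ⟨x, t₁, t₀, u, ω, rfl⟩ := c.exists_pt w
  exact (ov_iff hw).trans ⟨fun a => ⟨hw, a.1 one_ne_zero, congrFun (a.2.2.1 zero_ne_one)⟩, fun a =>
    ⟨fun _ => a.2.1, fun d => (d rfl).elim, fun _ => funext a.2.2, fun d => (d rfl).elim⟩⟩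

theorem ov_cases {ρ} (hw : w ∈ c.MA) (h : OvP (c.PT χ κ g).E.toWt (c.PT χ κ g).wt (c.Φs w) ρ) :
    ρ = c.lb 1 1 ∨ ρ = c.lb 0 0 ∨ ρ = c.lb 1 0 := by
  have e := lb_cases hw fun j d => h (.inl j) ((nw_inl j).2 d)
  generalize ρ () none = a at e
  generalize ρ () (some none) = b at e
  subst e
  have f := t1_eq hw
  obtain ⟨x, t₁, t₀, u, ω, rfl⟩ := c.exists_pt w
  obtain ⟨h1, h2, h3, h4⟩ := (ov_iff hw).1 h
  obtain ⟨-, h5, h6, -⟩ := mem_MA.1 hw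
  obtain rfl | rfl : 0 = a ∨ 1 = a := h6.imp (not_imp_comm.1 h3) (not_imp_comm.1 h4)
  · have i : t₁ = 0 := f.trans (mul_eq_zero_of_right _ ((Mτ_zero hw).2 (h4 one_ne_zero)))
    obtain rfl : 0 = b := not_imp_comm.1 h2 (h5.resolve_left fun l => l i)
    exact .inr (.inl rfl)
  · obtain rfl | rfl : 1 = b ∨ 0 = b := h5.imp (not_imp_comm.1 h1) (not_imp_comm.1 h2)
    exacts [.inl rfl, .inr (.inr rfl)]

variable (hc : ∀ z, z ∈ (c.PT χ κ g).E.cone ↔ z.2 ∈ grS c.MA fun w _ => c.Mτ w)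
include hc

theorem exists_Φs {z} (h : z ∈ (c.PT χ κ g).E.cone) : ∃ w ∈ c.MA, z.2 = c.Φs w :=
  let ⟨a, b⟩ := (hc z).1 h
  ⟨_, a, (Sum.elim_comp_inl_inr z.2).symm.trans (congrArg _ b)⟩

theorem cone_V {ρ S} (h : ∀ w ∈ c.MA, OvP (c.PT χ κ g).E.toWt (c.PT χ κ g).wt (c.Φs w) ρ ↔ w ∈ S)
    (hS : S ⊆ c.MA) (z) : z ∈ ((c.PT χ κ g).V ρ).E.cone ↔ z.2 ∈ grS S fun w _ => c.Mτ w := by
  refine TT.mem_zro_E.trans ⟨fun ⟨a, b⟩ => ?_, fun ⟨a, b⟩ => ?_⟩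
  · obtain ⟨w, d, e⟩ := exists_Φs hc a
    rw [e] at b ⊢
    exact ⟨(h w d).1 b, rfl⟩
  · refine ⟨(hc z).2 ⟨hS a, b⟩, ?_⟩
    rw [← Sum.elim_comp_inl_inr z.2, b]
    exact (h _ (hS a)).2 a

theorem end_src : (c.PT χ κ g).End (c.lb 1 1) (.inl (.inl (.inr false))) where
  mov := trivial
  mv := (nw_inl _).2 zero_ne_one
  ne := ⟨.inl (.inl (.inr true)), trivial, fun a => (nw_inl _).1 a rfl⟩
  cut z a b := by
    obtain ⟨w, d, e⟩ := exists_Φs hc a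
    rw [e] at b ⊢
    exact (ov_src d).2 ⟨d, b⟩
  tr z a b := by
    obtain ⟨w, d, e⟩ := exists_Φs hc a
    obtain ⟨x, t₁, t₀, u, ω, rfl⟩ := c.exists_pt w
    obtain ⟨f, i, rfl, rfl, τ, j, rfl⟩ := mem_Src.1 ⟨d, (congrFun e _).symm.trans b⟩
    refine ⟨Sum.elim (c.pt 0 0 1 ((τ / t₁) • gv c.g x) 0) 0, line_vert (P := c.PT χ κ g)
      (fun _ l => l trivial) (.of_forall fun ε => (hc _).2 ?_), one_ne_zero⟩
    have k : c.pt x t₁ ε ((ε * (τ / t₁)) • gv c.g x) (τ • gv c.h x) ∈ c.MA :=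
      mem_MA.2 ⟨f, .inl i, .inr (smul_ne_zero j (c.h_ne (Y.pv.sub f))), t₁ / τ, τ, by
        rw [smul_smul]
        exact congrArg (· • _) (by field_simp), rfl, (div_mul_cancel₀ _ j).symm,
        fun k => (div_ne_zero i j k).elim⟩
    have l : (z.2 + ε • Sum.elim (c.pt 0 0 1 ((τ / t₁) • gv c.g x) 0) 0) ∘ .inl =
        c.pt x t₁ ε ((ε * (τ / t₁)) • gv c.g x) (τ • gv c.h x) := by
      rw [e]
      refine (pt_add ε).trans ?_
      simp [smul_smul]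
    refine ⟨l.symm ▸ k, funext fun _ => ?_⟩
    refine Eq.trans ?_ ((congrArg c.Mτ l).trans (Mτ_eq k rfl)).symm
    rw [e]
    exact ((congrArg _ (mul_zero ε)).trans (add_zero _)).trans (Mτ_eq d rfl)

theorem end_snk : (c.PT χ κ g).End (c.lb 0 0) (.inr ()) where
  mov := trivial
  mv := (nw_inr _).2 one_ne_zero
  ne := ⟨.inl (.inl (.inr false)), trivial, fun a => (nw_inl _).1 a rfl⟩
  cut z a b := by
    obtain ⟨w, d, e⟩ := exists_Φs hc a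
    obtain ⟨x, t₁, t₀, u, ω, rfl⟩ := c.exists_pt w
    rw [e] at b ⊢
    exact (ov_snk d).2 ⟨d, congrFun ((Mτ_zero d).1 b)⟩
  tr z a b := by
    obtain ⟨w, d, e⟩ := exists_Φs hc a
    obtain ⟨x, t₁, t₀, u, ω, rfl⟩ := c.exists_pt w
    have b' : c.Mτ (c.pt x t₁ t₀ u ω) = 0 := (congrFun e _).symm.trans b
    obtain ⟨⟨f, i, s, j, m⟩, rfl, o, rfl⟩ := mem_Snk.1 ⟨d, congrFun ((Mτ_zero d).1 b')⟩
    refine ⟨Sum.elim (c.pt 0 (t₀ * s) 0 0 (gv c.h x)) 1, line_vert (P := c.PT χ κ g)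
      (fun _ l => l trivial) (.of_forall fun ε => (hc _).2 ?_), one_ne_zero⟩
    have k : c.pt x (t₀ * s * ε) t₀ u (ε • gv c.h x) ∈ c.MA :=
      mem_MA.2 ⟨f, .inr o, .inl i, t₀ * s, ε, by rw [mul_smul]; exact congrArg _ j, rfl, rfl,
        fun k => m ((mul_eq_zero_iff_left o).1 k)⟩
    have l : (z.2 + ε • Sum.elim (c.pt 0 (t₀ * s) 0 0 (gv c.h x)) 1) ∘ .inl =
        c.pt x (t₀ * s * ε) t₀ u (ε • gv c.h x) := by
      rw [e]
      refine (pt_add ε).trans ?_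
      simp [mul_comm ε]
    refine ⟨l.symm ▸ k, funext fun _ => ?_⟩
    refine Eq.trans ?_ ((congrArg c.Mτ l).trans (Mτ_eq k rfl)).symm
    rw [e]
    exact (congrArg₂ (· + ·) b' (mul_one ε)).trans (zero_add _)

end tt

theorem mc_src : MC c.Mπ c.Src := by
  simpa only [forall_eq, Src] using mc_zro c.pvM.toMC (· = .inl (.inr false))

theorem mc_snk : MC c.Mπ c.Snk := by
  simpa only [forall_exists_index, forall_apply_eq_imp_iff, Snk] using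
    mc_zro c.pvM.toMC (∃ α, .inr (.inr α) = ·)

end Ctr

open Ctr in
/-- **The master space of a blow-up is a target.** -/
theorem wgb : WGB := by
  rintro n Y c ⟨P⟩ h
  have hol : ∀ w ∈ c.MA, HolOn c.MA (fun w (_ : Unit) => c.Mτ w) w := fun w a =>
    .pi fun _ => holOn_Mτ a
  have eqv : ∀ t, IsUnit t → ∀ w ∈ c.MA, (fun _ : Unit => c.Mτ (scl c.Mπ t w)) =
      tw (fun _ => c.ws) t fun _ => c.Mτ w := fun t a w b => funext fun _ => Mτ_scl a b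
  obtain ⟨K, _, χ, κ, g, D, ok, hc⟩ := exists_grT (ωt := 1) h.pv h.tinv (c.detM P.det) hol eqv
    fun τ a w b => funext fun _ => (Mτ_tw a b).trans (by simp [tw])
  obtain ⟨M, a0⟩ := Sct.trs (π := c.Mπ) (A := c.MA) (ι := id) (s := id)
    ⟨fun _ _ => .of_an analyticAt_id, fun _ => id, fun _ _ => rfl,
      fun w _ _ => ⟨1, isUnit_one, (scl_one _).symm⟩, fun r => Pi.single r 1, fun t _ x _ =>
        congrArg (scl _ · x) (funext fun r => (prod_sgl t r).symm)⟩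
    h.pv.toMC h.pv.toMC h.conn.nonempty injective_id (fun _ => rfl) fun _ => id
  obtain rfl : (fun r => Pi.single r 1) = M := (funext a0.M_ρ).symm
  obtain ⟨M₁, a1⟩ := c.sct_src.trs Y.pv.toMC mc_src Y.conn.nonempty (c.pY h).injR (c.pY h).blk
    fun _ a => a.1.1.1
  have i2 : Injective (Option.map (some : Y.R → _)) := Option.map_injective (Option.some_injective _)
  obtain ⟨M₂, a2⟩ := c.sct_snk.trs c.bl.pv.toMC mc_snk c.bl.conn.nonempty i2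
    (Sum.rec (fun _ => rfl) fun _ => rfl) h.snk_map
  have e : n + 1 + Fintype.card (Option (Option Y.R)) - 1 =
      n + Fintype.card (Option (Option Y.R)) := by omega
  let t : TP (c.W h) c.Mwt := ⟨_, K, c.PT χ κ g, 30, D, _, .inl, c.Φs, ok, rfl, rfl, fun _ => rfl,
    h.tinv, tors_gr (V := c.W h) a0 injective_id Subset.rfl rfl hol eqv hc⟩
  exact ⟨⟨h, t, .inr (), Sum.rec (fun j => .inr ⟨j, rfl⟩) fun _ => .inl rfl, rfl, rfl,
    fun _ _ => rfl, ⟨c.lb 1 1, _, _, _, M₁, _, rfl, e ▸ (end_src hc).ok_V ok,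
      tors_gr a1 (c.pY h).injJ (fun _ a => a.1) rfl hol eqv
        (cone_V hc (fun _ => ov_src) fun _ a => a.1), end_src hc⟩, rfl, rfl, rfl, rfl,
    fun _ => ⟨fun a => (ov_src a.1).1 a.2, fun a => ⟨a.1, (ov_src a.1).2 a⟩⟩,
    ⟨c.lb 0 0, _, _, _, M₂, _, rfl, e ▸ (end_snk hc).ok_V ok,
      tors_gr a2 (Sum.inl_injective.sumMap Sum.inl_injective) (fun _ a => a.1) rfl hol eqv
        (cone_V hc (fun _ => ov_snk) fun _ a => a.1), end_snk hc⟩, rfl, rfl, rfl, rfl,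
    fun _ => ⟨fun a => (ov_snk a.1).1 a.2, fun a => ⟨a.1, (ov_snk a.1).2 a⟩⟩,
    fun _ => ⟨fun a => (ov_mid a.1).1 a.2, fun a => ⟨a.1, (ov_mid a.1).2 a⟩⟩,
    fun _ _ a => ov_cases a.1 a.2⟩⟩

end Vale.Agent.P287Q
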