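import Vale.Agent.P287Q.Pv.Grp
import Vale.Agent.P287Q.Pv.Bl

/-!
# The product of a multicone with a cone in one more block
-/

set_option linter.unusedSectionVars false

namespace Vale.Agent.P287Q.Wg

open Set Function Topology Filter Module P269 P269.Holo

variable {J R I E F : Type} [Fintype J] [Fintype R] [Fintype I] [NormedAddCommGroup E]
  [NormedSpace ℂ E] [NormedAddCommGroup F] [NormedSpace ℂ F] [FiniteDimensional ℂ E]
  [FiniteDimensional ℂ F] {π : J → R} {A : Set (J → ℂ)} {B : Set (I → ℂ)} {n m a b : ℕ}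
  {w : J ⊕ I → ℂ}

/-- The product. -/
def prd (A : Set (J → ℂ)) (B : Set (I → ℂ)) : Set (J ⊕ I → ℂ) := {w | w ∘ .inl ∈ A ∧ w ∘ .inr ∈ B}

theorem prm_prd {ψ : E → J → ℂ} {φ : F → I → ℂ} {x : E} {z : F} (h : Prm A ψ x) (h' : Prm B φ z) :
    Prm (prd A B) (fun p : E × F => Sum.elim (ψ p.1) (φ p.2)) (x, z) :=
  (h.prod h').iso (f := fun q => Sum.elim q.1 q.2) (g := fun s => (s ∘ .inl, s ∘ .inr))
    (.of_an (an_elim analyticAt_fst analyticAt_snd)) (.of_an ((an_inl _).prod (an_inr _)))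
    (.of_forall fun _ c => ⟨c, rfl⟩) (.of_forall fun s c => ⟨c, Sum.elim_comp_inl_inr s⟩)

theorem mfdAt_prd (h : MfdAt A a (w ∘ .inl)) (h' : MfdAt B b (w ∘ .inr)) :
    MfdAt (prd A B) (a + b) w := by
  obtain ⟨ψ, c, d⟩ := h.prm
  obtain ⟨φ, e, f⟩ := h'.prm
  have := (prm_prd c e).mfdAt (n := a + b) (by simp)
  rwa [d, f, Sum.elim_comp_inl_inr] at this

theorem mem_tn_prd (h : MfdAt A a (w ∘ .inl)) (h' : MfdAt B b (w ∘ .inr)) {v : J ⊕ I → ℂ} :
    v ∈ tn (prd A B) w ↔ v ∘ .inl ∈ tn A (w ∘ .inl) ∧ v ∘ .inr ∈ tn B (w ∘ .inr) := by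
  obtain ⟨ψ, c, d⟩ := h.prm
  obtain ⟨φ, e, f⟩ := h'.prm
  have g := (prm_prd c e).mem_tn (v := v)
  have a1 : AnalyticAt ℂ (fun p : (Fin a → ℂ) × (Fin b → ℂ) => ψ p.1) (0, 0) :=
    AnalyticAt.comp (f := Prod.fst) c.an analyticAt_fst
  have a2 : AnalyticAt ℂ (fun p : (Fin a → ℂ) × (Fin b → ℂ) => φ p.2) (0, 0) :=
    AnalyticAt.comp (f := Prod.snd) e.an analyticAt_snd
  have b1 : HasFDerivAt (fun p : (Fin a → ℂ) × (Fin b → ℂ) => ψ p.1) _ (0, 0) :=
    HasFDerivAt.comp (f := Prod.fst) _ c.an.differentiableAt.hasFDerivAt hasFDerivAt_fst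
  have b2 : HasFDerivAt (fun p : (Fin a → ℂ) × (Fin b → ℂ) => φ p.2) _ (0, 0) :=
    HasFDerivAt.comp (f := Prod.snd) _ e.an.differentiableAt.hasFDerivAt hasFDerivAt_snd
  simp only [fderiv_elim a1 a2, b1.fderiv, b2.fderiv] at g
  rw [d, f, Sum.elim_comp_inl_inr] at g
  rw [g, ← d, ← f, c.mem_tn, e.mem_tn]
  refine ⟨fun ⟨u, k⟩ => k ▸ ⟨⟨u.1, rfl⟩, u.2, rfl⟩, fun ⟨⟨u, k⟩, u', k'⟩ => ⟨(u, u'), ?_⟩⟩
  rw [← Sum.elim_comp_inl_inr v, ← k, ← k']
  rfl

theorem mc_prd (h : MC π A) (h' : MC (fun _ : I => ()) B) : MC (blP I π) (prd A B) := by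
  refine ⟨fun w c o => ?_, fun t ht w c => ⟨?_, ?_⟩, fun w c d => ⟨h.cl _ ?_ fun r => ?_,
    h'.cl _ ?_ fun _ => ?_⟩⟩
  · rcases o with _ | r
    · obtain ⟨i, -, e⟩ := h'.sub c.2 ()
      exact ⟨.inr i, rfl, e⟩
    · obtain ⟨j, rfl, e⟩ := h.sub c.1 r
      exact ⟨.inl j, rfl, e⟩
  · exact h.inv (t ∘ some) (unit_iff.2 fun _ => unit_iff.1 ht _) _ c.1
  · exact h'.inv (fun _ => t none) (unit_iff.2 fun _ => unit_iff.1 ht _) _ c.2
  · exact map_mem_closure (f := fun s : J ⊕ I → ℂ => s ∘ Sum.inl)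
      (continuous_iff_continuousAt.2 fun s => (an_inl s).continuousAt) c fun _ e => e.1
  · obtain ⟨j | i, e, f⟩ := d (some r)
    exacts [⟨j, Option.some_injective _ e, f⟩, nomatch e]
  · exact map_mem_closure (f := fun s : J ⊕ I → ℂ => s ∘ Sum.inr)
      (continuous_iff_continuousAt.2 fun s => (an_inr s).continuousAt) c fun _ e => e.2
  · obtain ⟨j | i, e, f⟩ := d none
    · exact absurd e (Option.some_ne_none _)
    · exact ⟨i, rfl, f⟩

theorem pv_prd (h : PV π A n) (h' : PV (fun _ : I => ()) B m) :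
    PV (blP I π) (prd A B) (n + m) :=
  ⟨mc_prd h.toMC h'.toMC, fun w c => by
    have := mfdAt_prd (h.mfd _ c.1) (h'.mfd _ c.2)
    rwa [Fintype.card_unit, add_add_add_comm, ← Fintype.card_option] at this⟩

theorem isConnected_prd (h : IsConnected A) (h' : IsConnected B) : IsConnected (prd A B) := by
  have e : prd A B = (fun q : (J → ℂ) × (I → ℂ) => Sum.elim q.1 q.2) '' A ×ˢ B :=
    Set.ext fun w => ⟨fun c => ⟨(w ∘ .inl, w ∘ .inr), c, Sum.elim_comp_inl_inr w⟩,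
      fun ⟨_, c, d⟩ => d ▸ c⟩
  exact e ▸ (h.prod h').image _ fun q _ =>
    (an_elim analyticAt_fst analyticAt_snd).continuousAt.continuousWithinAt

theorem mem_UstU {u : I → ℂ} : u ∈ Ust (fun _ : I => ()) ↔ u ≠ 0 :=
  ⟨fun h => let ⟨i, _, e⟩ := h (); ne_iff.2 ⟨i, e⟩,
    fun h _ => let ⟨i, e⟩ := ne_iff.1 h; ⟨i, rfl, e⟩⟩

theorem UstU_eq : Ust (fun _ : I => ()) = {u | u ≠ 0} := Set.ext fun _ => mem_UstU

/-- The projective line. -/
theorem pv_line : PV (fun _ : Bool => ()) {u | u ≠ 0} 1 := by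
  have := pv_Ust (π := fun _ : Bool => ())
  rwa [UstU_eq] at this

theorem tn_line {u : I → ℂ} (h : u ≠ 0) : tn {u : I → ℂ | u ≠ 0} u = ⊤ :=
  tn_of_nhds (isOpen_ne.mem_nhds h)

theorem prm_pt (c : Bool) {s : ℂ} (h : s ≠ 0) :
    Prm {u : Bool → ℂ | u ≠ 0 ∧ u c = 0} (fun z : ℂ => Pi.single (!c) z) s := by
  have a : ∀ z, AnalyticAt ℂ (fun z : ℂ => (Pi.single (!c) z : Bool → ℂ)) z := fun z =>
    (ContinuousLinearMap.single ℂ (fun _ : Bool => ℂ) (!c)).analyticAt z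
  refine .of_inv (a s) (w := fun u => u (!c)) (.of_an (an_cd _ _)) ?_
    (.of_forall fun u e => funext fun i => ?_)
  · filter_upwards [eventually_ne_nhds h] with z e
    exact ⟨⟨by simpa using e, by simp⟩, by simp⟩
  · by_cases f : i = !c
    · simp [f]
    · rw [Pi.single_eq_of_ne f, show i = c by simpa using f, e.2]

theorem eq_single {c : Bool} {u : Bool → ℂ} (h : u c = 0) : Pi.single (!c) (u (!c)) = u :=
  funext fun i => by
    by_cases f : i = !c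
    · simp [f]
    · rw [Pi.single_eq_of_ne f, show i = c by simpa using f, h]

theorem ne_of_pt {c : Bool} {u : Bool → ℂ} (h : u ≠ 0) (h' : u c = 0) : u (!c) ≠ 0 :=
  fun e => h (by rw [← eq_single h', e, Pi.single_zero])

/-- A point of the projective line. -/
theorem pv_pt (c : Bool) : PV (fun _ : Bool => ()) {u | u ≠ 0 ∧ u c = 0} 0 :=
  ⟨pv_line.toMC.of_closed (Z := {u | u c = 0}) (isClosed_eq (continuous_apply c) continuous_const)
    rfl fun t a u e => ⟨pv_line.inv t a u e.1, by simp [scl, e.2]⟩, fun u e => by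
      have := (prm_pt c (ne_of_pt e.1 e.2)).mfdAt (n := 0 + Fintype.card Unit) (by simp)
      rwa [eq_single e.2] at this⟩

theorem mem_tn_pt {c : Bool} {u v : Bool → ℂ} (h : u ≠ 0) (h' : u c = 0) :
    v ∈ tn {u : Bool → ℂ | u ≠ 0 ∧ u c = 0} u ↔ v c = 0 := by
  have a := (prm_pt c (ne_of_pt h h')).mem_tn (v := v)
  rw [eq_single h', show fderiv ℂ (fun z : ℂ => (Pi.single (!c) z : Bool → ℂ)) (u (!c)) =
    ContinuousLinearMap.single ℂ (fun _ : Bool => ℂ) (!c) from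
      (ContinuousLinearMap.single ℂ (fun _ : Bool => ℂ) (!c)).fderiv] at a
  exact a.trans ⟨fun ⟨z, e⟩ => by simp [← e], fun e => ⟨_, eq_single e⟩⟩

end Vale.Agent.P287Q.Wg
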