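import Vale.Agent.P287Q.Lz.HVo
import Vale.Agent.P287Q.Emb.Grq
import Vale.Agent.P287Q.Emb.Trf
import Vale.Agent.P287Q.Top.BLPRS
import Vale.Agent.P287Q.Wg.Blm0

/-!
# The graph of an equivariant holomorphic map over a multicone as a target with a torus action
-/

set_option linter.unusedSectionVars false

namespace Vale.Agent.P287Q.Wg

open Set Function Topology Filter MvPolynomial P269 P269.Holo P269.Lz

variable {J R S T K : Type} [Fintype J] [Fintype R] [Fintype S] [Fintype T] [Fintype K]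

theorem inv_tt {S' : Type} [Fintype S'] (P : TT R J K S) {wt : J → S' → ℤ} {wk : K → S' → ℤ}
    (h1 : ∀ k, WHom P.w (P.χ k) (P.G k)) (h2 : ∀ k, WHom wt (wk k) (P.G k)) (h3 : IsOpen P.U)
    (h4 : ∀ c : J → ℂ, IsUnit c → ∀ y ∈ P.U, c * y ∈ P.U) (h6 : Disjoint P.zer P.mov) :
    (P.fam wt wk Empty.elim univ).Inv where
  hom k α a := h1 k α ((TT.supp_eq k).le a)
  homS k α a _ _ i := by simpa using h2 k α ((TT.supp_eq k).le a) i
  openU := h3.preimage continuous_snd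
  invU t a z b := h4 _ (unit_iff.2 fun j => mul_ne_zero
    (Finset.prod_ne_zero_iff.2 fun _ _ => zpow_ne_zero _ (unit_iff.1 (Prod.isUnit_iff.1 a).1 _))
    (Finset.prod_ne_zero_iff.2 fun _ _ => zpow_ne_zero _ (unit_iff.1 (Prod.isUnit_iff.1 a).2 _))) _ b
  closedE := isClosed_univ
  invE _ _ _ _ := trivial
  baseE _ _ _ _ _ := trivial
  zer_base := h6
  lcB := isClosed_univ.isLocallyClosed
  invB _ _ _ _ := trivial

theorem tt_jac (P : TT R J K S) (z) (v : J → ℂ) (k : K) :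
    ∑ j, P.E.jac z k j * v j = fderiv ℂ (gv P.G) z.2 v k := by
  have l : HasDerivAt (fun ε : ℂ => z.2 + ε • v) v 0 := by
    simpa using ((hasDerivAt_id (0 : ℂ)).smul_const v).const_add z.2
  simp only [TT.jac, fderiv_gv]
  exact (Vir.hasDerivAt_eval (P.G k) z.2 v).unique
    ((an_eval (P.G k) z.2).differentiableAt.hasFDerivAt.comp_hasDerivAt_of_eq 0 l (by simp))

theorem line_mem_tn {A : Set (J → ℂ)} {w v : J → ℂ} (h : ∀ᶠ ε : ℂ in 𝓝 0, w + ε • v ∈ A) :
    v ∈ tn A w := by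
  have a := ((hasFDerivAt_id (𝕜 := ℂ) (0 : ℂ)).smul_const v).const_add w
  simpa [show fderiv ℂ (fun ε : ℂ => w + ε • v) 0 = _ from a.fderiv] using fderiv_mem_tn
    (u := fun ε : ℂ => w + ε • v) (analyticAt_const.add (analyticAt_id.smul analyticAt_const)) h 1

/-- A line in the cone is vertical. -/
theorem line_vert {P : TT R J K S} (ha : P.movᶜ ⊆ P.zer) {z : (Empty → ℂ) × (J → ℂ)} {v : J → ℂ}
    (h : ∀ᶠ ε : ℂ in 𝓝 0, (z.1, z.2 + ε • v) ∈ P.E.cone) : v ∈ P.E.vert z :=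
  tn_fc_le (F := P.E) ha (line_mem_tn (A := P.E.fc z.1) h)

variable [DecidableEq R]

/-- The target with the fields `J ⊕ T`. -/
@[reducible] noncomputable def grT (π : J → R) (wt : J → S → ℤ) (ω : T → R → ℤ) (ωt : T → S → ℤ)
    (χ : K → R → ℤ) (κ : K → S → ℤ) (g : K → MvPolynomial (J ⊕ T) ℂ) : TT R (J ⊕ T) K S where
  w := Sum.elim (bw π) ω
  θ := fun _ => 3
  χ := χ
  G := g
  U := {w | w ∘ .inl ∈ Ust π}
  mov := univ
  zer := ∅
  wt := Sum.elim wt ωt
  wk := κ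

variable {π : J → R} {A : Set (J → ℂ)} {n : ℕ} {wt : J → S → ℤ} {γ : R → ℤ} {ω : T → R → ℤ}
  {ωt : T → S → ℤ} {σ : (J → ℂ) → T → ℂ}

theorem tw_elim (t : R → ℂ) (y : J → ℂ) (x : T → ℂ) :
    tw (Sum.elim (bw π) ω) t (Sum.elim y x) = Sum.elim (scl π t y) (tw ω t x) :=
  funext fun j => j.rec (fun j => congrFun (congrFun (tw_bw π t) y) j) fun _ => rfl

/-- **The graph is an admissible target.** -/
theorem exists_grT [Nonempty J] (hA : PV π A n) (hT : TInv wt A)
    (hD : Det π A (n + Fintype.card R) γ) (hol : ∀ y ∈ A, HolOn A σ y)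
    (eqv : ∀ t, IsUnit t → ∀ y ∈ A, σ (scl π t y) = tw ω t (σ y))
    (eqv' : ∀ τ, IsUnit τ → ∀ y ∈ A, σ (tw wt τ y) = tw ωt τ (σ y)) :
    ∃ (K : Type) (_ : Fintype K) (χ : K → R → ℤ) (κ : K → S → ℤ) (g : K → MvPolynomial (J ⊕ T) ℂ)
      (D : ℕ), (grT π wt ω ωt χ κ g).Ok ⟨n + Fintype.card R, γ⟩ 30 D ∧
        ∀ z, z ∈ (grT π wt ω ωt χ κ g).E.cone ↔ z.2 ∈ grS A σ := by
  obtain ⟨k₀, δ, g₀, κ₀, a1, a2, a3⟩ := chow J R S π wt A n hA hT
  obtain ⟨k, χ, κ, g, b1, b2, b3, b4, b5⟩ := Emb.exists_grqT hA hT ω ωt σ hol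
    (fun t h y a => congrFun (eqv t h y a)) fun t h y a => congrFun (eqv' t h y a)
  have hG := fam_good a1.hom a2 fun i => (a3 i).1
  let P := grT π wt ω ωt (Sum.elim (fun _ => δ) χ) (Sum.elim κ₀ κ)
    (Sum.elim (fun i => rename .inl (g₀ i)) g)
  have hc : ∀ z, z ∈ P.E.cone ↔ z.2 ∈ grS A σ := fun z => by
    have e := b4 (z.2 ∘ .inl) (x := z.2 ∘ .inr)
    have f : ∀ i, eval z.2 (P.G (.inl i)) = gv g₀ (z.2 ∘ .inl) i :=
      fun i => eval_rename Sum.inl z.2 (g₀ i)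
    have f' : ∀ i, eval z.2 (P.G (.inr i)) = gv g z.2 i := fun _ => rfl
    rw [Sum.elim_comp_inl_inr] at e
    simp only [TT.mem_cone, Sum.forall, f, f']
    exact ⟨fun b => have c := (a1.zero _ b.2.1).2 (funext b.2.2.2.1)
      ⟨c, (e c).1 (funext b.2.2.2.2)⟩, fun b => ⟨trivial, hA.sub b.1, ⟨nofun, nofun⟩,
        congrFun ((a1.zero _ (hA.sub b.1)).1 b.1), congrFun ((e b.1).2 b.2)⟩⟩
  have hI : ∀ {S' : Type} [Fintype S'] {wt : J ⊕ T → S' → ℤ} {wk}, (∀ k, WHom wt (wk k) (P.G k)) →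
      (P.fam wt wk Empty.elim univ).Inv := fun h => inv_tt P
    (Sum.rec (fun i => whom_rename (a1.hom i)) b1) h (isOpen_Ust.preimage (by fun_prop))
    (fun c a y b r => (b r).imp fun j d => ⟨d.1, mul_ne_zero (unit_iff.1 a _) d.2⟩)
    (empty_disjoint _)
  have hE : P.E.Inv := hI fun _ _ _ i => i.elim
  have h : (fam π δ g₀).Grf P.E .inl .inl fun u => Sum.elim u.2 (σ u.2) :=
    { inj := Sum.inl_injective, w := fun _ => rfl, wt := fun _ => rfl, wl := rfl, θ := rfl, B := rfl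
      E := fun _ _ => trivial, mov := fun _ => Iff.rfl, zer := fun _ a => a
      new := fun _ _ a => a trivial, G := fun _ => map_rename _ _ _, sec := fun _ _ => rfl
      cone := fun z => (hc z).trans (and_congr (fam_cone a1 (z := (z.1, z.2 ∘ .inl))).symm
        ⟨fun a => by rw [← a, Sum.elim_comp_inl_inr], fun a => congrArg (· ∘ Sum.inr) a⟩)
      cont := continuousOn_pi.2 fun j => by
        cases j
        exacts [((continuous_apply _).comp continuous_snd).continuousOn, continuousOn_pi.1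
          (ContinuousOn.comp (fun y a => (hol y a).tendsto a) continuousOn_snd
            fun _ => (fam_cone a1).1) _]
      jac := fun z a η b c => by
        obtain ⟨d, e⟩ := (hc z).1 a
        have f := b5 _ d (η ∘ .inr) (by
          rw [← e, ← c, Sum.elim_comp_inl_inr, Sum.elim_comp_inl_inr]
          funext i
          rw [fderiv_gv]
          exact ((tt_jac P z η (.inr i)).trans (fderiv_gv ..)).symm.trans
            ((RP.mem_vert.1 b).2 (.inr i)))
        rw [← Sum.elim_comp_inl_inr η, c, f, Sum.elim_zero_zero] }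
  obtain ⟨D, hD'⟩ := (P.E.eventually_bigD 30).exists
  refine ⟨_, inferInstance, _, _, _, D, ⟨h.good hG hE fun i => ?_,
    h.reg hG.toInv hE (fam_reg a1 hA hD), fun _ a => a trivial,
    hI (Sum.rec (fun i => whom_rename (a3 i).2) b2), h.big (fam_big le_rfl), hD'⟩, hc⟩
  rw [totalDegree, TT.supp_eq]
  cases i with
  | inr i => exact b3 i
  | inl i =>
    have e := totalDegree_rename_le (Sum.elim id fun _ => Classical.arbitrary J) (P.G (.inl i))
    rw [show P.G (.inl i) = rename .inl (g₀ i) from rfl, rename_rename, Sum.elim_comp_inl,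
      rename_id_apply] at e
    refine fun a => hG.deg i ?_
    rw [totalDegree, show ((fam π δ g₀).G i).support = (g₀ i).support from
      support_map_of_injective _ (C_injective _ _)]
    exact Nat.le_zero.1 (e.trans_eq a)

/-- The graph over a torsor is a torsor. -/
theorem tors_gr {m : ℕ} {V : Var m} {F : Wt Empty Empty R (J ⊕ T)} {Z} {A₁ : Set (J → ℂ)}
    {i : V.J → J} {r : V.R → R} {M} {s : (V.J → ℂ) → J → ℂ} (h : Trs V.π V.A (bw π) A₁ i r M s)
    (hi : Injective i) (h1 : A₁ ⊆ A) (hw : F.w = Sum.elim (bw π) ω) (hol : ∀ y ∈ A, HolOn A σ y)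
    (eqv : ∀ t, IsUnit t → ∀ y ∈ A, σ (scl π t y) = tw ω t (σ y))
    (hZ : ∀ z, z ∈ Z ↔ z.2 ∈ grS A₁ σ) :
    Tors V F Z (.inl ∘ i) r M fun y => Sum.elim (s y) (σ (s y)) := by
  have e : ∀ t, IsUnit t → ∀ y ∈ A₁, F.actT (1, t) (0, Sum.elim y (σ y)) =
      (0, Sum.elim (scl π t y) (σ (scl π t y))) := fun t a y b => by
    rw [eqv t a y (h1 b), ← tw_elim, ← hw]
    exact Prod.ext (Subsingleton.elim _ _) (funext fun j => by simp [Wt.actT, tw])
  refine ⟨Sum.inl_injective.comp hi, h.inj, fun j => hw ▸ h.wt j, fun z a => h.maps _ ((hZ z).1 a).1,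
    h.M_ρ, fun y a => (hZ _).2 ⟨h.mem y a, rfl⟩, h.sec, fun y a => ?_, fun t a y b => ?_,
    fun z a => ?_⟩
  · obtain ⟨f, f1, f2⟩ := h.hol y a
    obtain ⟨g, g1, g2⟩ := (hol _ (h1 (h.mem y a))).comp (h.hol y a) a
      (.of_forall fun x b => h1 (h.mem x b))
    exact ⟨_, an_elim f1 g1, by
      filter_upwards [f2, g2] with x b c d using congrArg₂ Sum.elim (b d) (c d)⟩
  · rw [e _ (unit_iff.2 fun _ => Finset.prod_ne_zero_iff.2 fun _ _ =>
      zpow_ne_zero _ (unit_iff.1 a _)) _ (h.mem y b), h.eqv t a y b, tw_bw]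
  · obtain ⟨b, c⟩ := (hZ z).1 a
    obtain ⟨t, d, f⟩ := h.orb _ b
    refine ⟨t, d, Eq.trans ?_ (e t d _ (h.mem _ (h.maps _ b))).symm⟩
    rw [tw_bw] at f
    exact Prod.ext (Subsingleton.elim _ _) (((Sum.elim_comp_inl_inr z.2).symm.trans
      (congrArg _ c)).trans (congrArg (fun y => Sum.elim y (σ y)) f))

theorem mc_zro (h : MC π A) (p : J → Prop) : MC π {w | w ∈ A ∧ ∀ j, p j → w j = 0} where
  sub _ a := h.sub a.1
  inv t a y b := ⟨h.inv t a y b.1, fun j c => mul_eq_zero_of_right _ (b.2 j c)⟩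
  cl y a b := ⟨h.cl y (closure_mono (fun _ c => c.1) a) b, fun j c => closure_minimal
    (t := {w : J → ℂ | w j = 0}) (fun _ d => d.2 j c)
    (isClosed_eq (continuous_apply j) continuous_const) a⟩

end Vale.Agent.P287Q.Wg
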